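import Vale.Agent.P244Z.GeoMain

/-! P244: the sectional curvature of a doubly warped product. -/

open scoped Manifold ContDiff Topology RealInnerProductSpace
open Set Filter Module Metric Real

set_option maxSynthPendingDepth 3

namespace Vale.Agent.N244

open Vale.Agent.P244Z.Geo

section Pol

variable {V W : Type} [NormedAddCommGroup V] [InnerProductSpace ℝ V]
  [NormedAddCommGroup W] [InnerProductSpace ℝ W]

/-- curvature of the planes spanned by the radial direction and a direction of a sphere -/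
noncomputable def kR (χ f : ℝ → ℝ) (r : ℝ) : ℝ := -(ds χ (ds χ f) r / f r)

/-- curvature of the planes tangent to a sphere -/
noncomputable def kS (χ f : ℝ → ℝ) (r : ℝ) : ℝ := (1 - ds χ f r ^ 2) / f r ^ 2

/-- curvature of the mixed planes -/
noncomputable def kM (χ φ ψ : ℝ → ℝ) (r : ℝ) : ℝ := -(ds χ φ r * ds χ ψ r / (φ r * ψ r))

/-- squared area, radial and sphere directions -/
noncomputable def aR (s t : ℝ) (x y : V) : ℝ := s ^ 2 * ⟪y, y⟫ - 2 * s * t * ⟪x, y⟫ + t ^ 2 * ⟪x, x⟫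

/-- squared area, sphere directions -/
noncomputable def aS (x y : V) : ℝ := ⟪x, x⟫ * ⟪y, y⟫ - ⟪x, y⟫ ^ 2

/-- squared area, mixed directions -/
noncomputable def aM (x y : V) (x' y' : W) : ℝ :=
  ⟪x, x⟫ * ⟪y', y'⟫ + ⟪y, y⟫ * ⟪x', x'⟫ - 2 * ⟪x, y⟫ * ⟪x', y'⟫

theorem aR_nonneg (s t : ℝ) (x y : V) : 0 ≤ aR s t x y := by
  have h : 0 ≤ ⟪s • y - t • x, s • y - t • x⟫ := real_inner_self_nonneg
  simp only [inner_sub_left, inner_sub_right, real_inner_smul_left, real_inner_smul_right,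
    real_inner_comm x y] at h
  unfold aR
  nlinarith [h]

theorem aS_nonneg (x y : V) : 0 ≤ aS x y := by
  have := real_inner_mul_inner_self_le x y
  unfold aS
  nlinarith

theorem aM_nonneg (x y : V) (x' y' : W) : 0 ≤ aM x y x' y' := by
  have h1 := abs_real_inner_le_norm x y
  have h2 := abs_real_inner_le_norm x' y'
  have h3 : ⟪x, y⟫ * ⟪x', y'⟫ ≤ ‖x‖ * ‖y‖ * (‖x'‖ * ‖y'‖) := by
    refine (le_abs_self _).trans ?_
    rw [abs_mul]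
    exact mul_le_mul h1 h2 (abs_nonneg _) (by positivity)
  unfold aM
  simp only [real_inner_self_eq_norm_sq]
  nlinarith [sq_nonneg (‖x‖ * ‖y'‖ - ‖y‖ * ‖x'‖)]

/-- the numerator of the sectional curvature in the adapted frame -/
noncomputable def secP (χ φ ψ : ℝ → ℝ) (r : ℝ) (u v : ℝ × V × W) : ℝ :=
  kR χ φ r * (χ r ^ 2 * φ r ^ 2 * aR u.1 v.1 u.2.1 v.2.1) +
    kR χ ψ r * (χ r ^ 2 * ψ r ^ 2 * aR u.1 v.1 u.2.2 v.2.2) +
    kS χ φ r * (φ r ^ 4 * aS u.2.1 v.2.1) + kS χ ψ r * (ψ r ^ 4 * aS u.2.2 v.2.2) +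
    kM χ φ ψ r * (φ r ^ 2 * ψ r ^ 2 * aM u.2.1 v.2.1 u.2.2 v.2.2)

/-- the metric in the adapted frame -/
noncomputable def metP (χ φ ψ : ℝ → ℝ) (r : ℝ) (u v : ℝ × V × W) : ℝ :=
  χ r ^ 2 * (u.1 * v.1) + φ r ^ 2 * ⟪u.2.1, v.2.1⟫ + ψ r ^ 2 * ⟪u.2.2, v.2.2⟫

theorem abs_secP_le {χ φ ψ : ℝ → ℝ} {r K : ℝ} (h1 : |kR χ φ r| ≤ K) (h2 : |kR χ ψ r| ≤ K)
    (h3 : |kS χ φ r| ≤ K) (h4 : |kS χ ψ r| ≤ K) (h5 : |kM χ φ ψ r| ≤ K) (u v : ℝ × V × W) :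
    |secP χ φ ψ r u v| ≤ K * (metP χ φ ψ r u u * metP χ φ ψ r v v - metP χ φ ψ r u v ^ 2) := by
  have e : metP χ φ ψ r u u * metP χ φ ψ r v v - metP χ φ ψ r u v ^ 2 =
      χ r ^ 2 * φ r ^ 2 * aR u.1 v.1 u.2.1 v.2.1 + χ r ^ 2 * ψ r ^ 2 * aR u.1 v.1 u.2.2 v.2.2 +
      φ r ^ 4 * aS u.2.1 v.2.1 + ψ r ^ 4 * aS u.2.2 v.2.2 +
      φ r ^ 2 * ψ r ^ 2 * aM u.2.1 v.2.1 u.2.2 v.2.2 := by
    simp only [metP, aR, aS, aM]
    ring
  have k : ∀ {a b : ℝ}, |a| ≤ K → 0 ≤ b → -(K * b) ≤ a * b ∧ a * b ≤ K * b := fun ha hb =>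
    ⟨by nlinarith [(abs_le.1 ha).1], mul_le_mul_of_nonneg_right (abs_le.1 ha).2 hb⟩
  have k1 := k h1 (mul_nonneg (by positivity : 0 ≤ χ r ^ 2 * φ r ^ 2)
    (aR_nonneg u.1 v.1 u.2.1 v.2.1))
  have k2 := k h2 (mul_nonneg (by positivity : 0 ≤ χ r ^ 2 * ψ r ^ 2)
    (aR_nonneg u.1 v.1 u.2.2 v.2.2))
  have k3 := k h3 (mul_nonneg (by positivity : 0 ≤ φ r ^ 4) (aS_nonneg u.2.1 v.2.1))
  have k4 := k h4 (mul_nonneg (by positivity : 0 ≤ ψ r ^ 4) (aS_nonneg u.2.2 v.2.2))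
  have k5 := k h5 (mul_nonneg (by positivity : 0 ≤ φ r ^ 2 * ψ r ^ 2)
    (aM_nonneg u.2.1 v.2.1 u.2.2 v.2.2))
  rw [e, secP, abs_le]
  constructor <;> linarith [k1.1, k1.2, k2.1, k2.2, k3.1, k3.2, k4.1, k4.2, k5.1, k5.2]

theorem curv_gam {Γ : ℝ × V × W → (ℝ × V × W) →L[ℝ] (ℝ × V × W) →L[ℝ] ℝ × V × W}
    {A B C β γ : ℝ → ℝ} {r A' B' C' β' γ' : ℝ} (hΓ : DifferentiableAt ℝ Γ (r, 0, 0))
    (he : ∀ᶠ z in 𝓝 ((r, 0, 0) : ℝ × V × W), ∀ u v, Γ z u v = gam A B C β γ z u v)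
    (hA : HasDerivAt A A' r) (hB : HasDerivAt B B' r) (hC : HasDerivAt C C' r)
    (hβ : HasDerivAt β β' r) (hγ : HasDerivAt γ γ' r) (a b c : ℝ) (u v : ℝ × V × W) :
    a * ((curvL Γ (r, 0, 0) v v u).1 * u.1) + b * ⟪(curvL Γ (r, 0, 0) v v u).2.1, u.2.1⟫ +
      c * ⟪(curvL Γ (r, 0, 0) v v u).2.2, u.2.2⟫ =
      a * ((-B' - A r * B r + β r * B r) * (u.1 ^ 2 * ⟪v.2.1, v.2.1⟫ - u.1 * v.1 * ⟪u.2.1, v.2.1⟫) +
        (-C' - A r * C r + γ r * C r) * (u.1 ^ 2 * ⟪v.2.2, v.2.2⟫ - u.1 * v.1 * ⟪u.2.2, v.2.2⟫)) +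
      b * ((-β' + β r * A r - β r ^ 2) * (v.1 ^ 2 * ⟪u.2.1, u.2.1⟫ - u.1 * v.1 * ⟪u.2.1, v.2.1⟫) +
        (1 - β r * B r) * aS u.2.1 v.2.1 -
        β r * C r * (⟪u.2.1, u.2.1⟫ * ⟪v.2.2, v.2.2⟫ - ⟪u.2.1, v.2.1⟫ * ⟪u.2.2, v.2.2⟫)) +
      c * ((-γ' + γ r * A r - γ r ^ 2) * (v.1 ^ 2 * ⟪u.2.2, u.2.2⟫ - u.1 * v.1 * ⟪u.2.2, v.2.2⟫) +
        (1 - γ r * C r) * aS u.2.2 v.2.2 -
        γ r * B r * (⟪u.2.2, u.2.2⟫ * ⟪v.2.1, v.2.1⟫ - ⟪u.2.1, v.2.1⟫ * ⟪u.2.2, v.2.2⟫)) := by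
  have h0 : ∀ u v, Γ (r, 0, 0) u v =
      (A r * (u.1 * v.1) - B r * ⟪u.2.1, v.2.1⟫ - C r * ⟪u.2.2, v.2.2⟫,
        β r • (u.1 • v.2.1 + v.1 • u.2.1), γ r • (u.1 • v.2.2 + v.1 • u.2.2)) := by
    intro u v
    rw [he.self_of_nhds]
    simp [gam, lam_zero, sph_zero]
  have h1 : ∀ x u v, fderiv ℝ Γ (r, 0, 0) x u v =
      (x.1 * (A' * (u.1 * v.1) - B' * ⟪u.2.1, v.2.1⟫ - C' * ⟪u.2.2, v.2.2⟫),
        (β' * x.1) • (u.1 • v.2.1 + v.1 • u.2.1) - (1 / 2 : ℝ) •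
          (⟪x.2.1, u.2.1⟫ • v.2.1 + ⟪x.2.1, v.2.1⟫ • u.2.1 - ⟪u.2.1, v.2.1⟫ • x.2.1),
        (γ' * x.1) • (u.1 • v.2.2 + v.1 • u.2.2) - (1 / 2 : ℝ) •
          (⟪x.2.2, u.2.2⟫ • v.2.2 + ⟪x.2.2, v.2.2⟫ • u.2.2 - ⟪u.2.2, v.2.2⟫ • x.2.2)) := by
    intro x u v
    have k1 : HasDerivAt (fun t : ℝ => Γ ((r, 0, 0) + t • x) u v)
        (fderiv ℝ Γ (r, 0, 0) x u v) 0 := by
      have := ((hasDerivAt_line hΓ x).clm_apply
        (hasDerivAt_const (0 : ℝ) u)).clm_apply (hasDerivAt_const (0 : ℝ) v)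
      simpa using this
    have k2 := (((hasDerivAt_aff hA x.1).mul_const (u.1 * v.1)).sub
      (((hasDerivAt_aff hB x.1).mul ((hasDerivAt_lam_line 0 x.2.1).pow 2)).mul_const
        ⟪u.2.1, v.2.1⟫)).sub
      (((hasDerivAt_aff hC x.1).mul ((hasDerivAt_lam_line 0 x.2.2).pow 2)).mul_const
        ⟪u.2.2, v.2.2⟫)
    have k3 := ((hasDerivAt_aff hβ x.1).smul_const (u.1 • v.2.1 + v.1 • u.2.1)).sub
      (hasDerivAt_sph x.2.1 u.2.1 v.2.1)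
    have k4 := ((hasDerivAt_aff hγ x.1).smul_const (u.1 • v.2.2 + v.1 • u.2.2)).sub
      (hasDerivAt_sph x.2.2 u.2.2 v.2.2)
    have k5 := k2.prodMk (k3.prodMk k4)
    have k6 : (fun t : ℝ => Γ ((r, 0, 0) + t • x) u v) =ᶠ[𝓝 0]
        fun t : ℝ => gam A B C β γ ((r, 0, 0) + t • x) u v := by
      filter_upwards [(tendsto_line _ x).eventually he] with t ht
      exact ht u v
    rw [k1.unique (HasDerivAt.congr_of_eventuallyEq k5 k6)]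
    refine Prod.ext ?_ rfl
    simp [lam_zero]
    ring
  simp only [curvL_apply, h0, h1, Prod.fst_add, Prod.fst_sub, Prod.snd_add, Prod.snd_sub,
    inner_add_left, inner_sub_left, inner_add_right, real_inner_smul_left, real_inner_smul_right,
    real_inner_comm u.2.1 v.2.1, real_inner_comm u.2.2 v.2.2, aS]
  ring

variable [FiniteDimensional ℝ V] [FiniteDimensional ℝ W] {a b c : ℝ → ℝ} {J : Set ℝ}

theorem sec_polG (hJ : IsOpen J) (ha : ContDiffOn ℝ ∞ a J) (hb : ContDiffOn ℝ ∞ b J)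
    (hc : ContDiffOn ℝ ∞ c J) (ha0 : ∀ r ∈ J, a r ≠ 0) (hb0 : ∀ r ∈ J, b r ≠ 0)
    (hc0 : ∀ r ∈ J, c r ≠ 0) {r : ℝ} (hr : r ∈ J) (u v : ℝ × V × W) :
    polG a b c (r, 0, 0) (curvL (chr (polG a b c)) (r, 0, 0) v v u) u = secP a b c r u v := by
  have hG := riemOn_polG (V := V) (W := W) hJ ha hb hc ha0 hb0 hc0
  have hz : ((r, 0, 0) : ℝ × V × W) ∈ J ×ˢ univ := ⟨hr, trivial⟩
  have d1 : ∀ f : ℝ → ℝ, ContDiffOn ℝ ∞ f J → ∀ r ∈ J, DifferentiableAt ℝ f r :=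
    fun f hf r hr => (hf.contDiffAt (hJ.mem_nhds hr)).differentiableAt (by simp)
  have d2 : ∀ f : ℝ → ℝ, ContDiffOn ℝ ∞ f J → HasDerivAt (deriv f) (deriv (deriv f) r) r :=
    fun f hf => (d1 _ (hf.deriv_of_isOpen hJ (by simp)) r hr).hasDerivAt
  have a0 := ha0 r hr
  have b0 := hb0 r hr
  have c0 := hc0 r hr
  have a1 := (d1 a ha r hr).hasDerivAt
  have b1 := (d1 b hb r hr).hasDerivAt
  have c1 := (d1 c hc r hr).hasDerivAt
  have e1 : ∀ f : ℝ → ℝ, ContDiffOn ℝ ∞ f J → ds a (ds a f) r =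
      (deriv (deriv f) r * a r - deriv f r * deriv a r) / a r ^ 2 / a r := by
    intro f hf
    have : HasDerivAt (ds a f) _ r := (d2 f hf).div a1 a0
    rw [ds, this.deriv]
  rw [polG_apply]
  simp only [lam_zero, one_pow, mul_one]
  rw [curv_gam ((hG.chr_at hz).differentiableAt (by simp)) ?_ ((d2 a ha).div a1 a0)
    ((b1.mul (d2 b hb)).div (a1.pow 2) (pow_ne_zero 2 a0))
    ((c1.mul (d2 c hc)).div (a1.pow 2) (pow_ne_zero 2 a0)) ((d2 b hb).div b1 b0)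
    ((d2 c hc).div c1 c0)]
  · simp only [secP, kR, kS, kM, aR, aM, e1 b hb, e1 c hc]
    simp only [ds, Pi.div_apply, Pi.mul_apply, Pi.pow_apply]
    norm_num
    field_simp
    ring
  · filter_upwards [hG.isOpen.mem_nhds hz] with z hz u v
    exact chr_polG hG hz (d1 a ha _ hz.1) (d1 b hb _ hz.1) (d1 c hc _ hz.1) (ha0 _ hz.1)
      (hb0 _ hz.1) (hc0 _ hz.1) u v

end Pol

/-- the numerator `G(R(u, v) v, u)` of the sectional curvature -/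
noncomputable def secA {E : Type} [NormedAddCommGroup E] [NormedSpace ℝ E] (G : E → Bil E)
    (y u v : E) : ℝ := G y (curvL (chr G) y v v u) u

theorem continuous_secA {E : Type} [NormedAddCommGroup E] [NormedSpace ℝ E]
    [FiniteDimensional ℝ E] {G : E → Bil E} (h : RiemOn G univ) (u v : E) :
    Continuous fun y => secA G y u v := by
  have h0 : Continuous G := continuousOn_univ.1 h.smooth.continuousOn
  have h1 : ContDiff ℝ ∞ (chr G) := contDiff_iff_contDiffAt.2 fun z => h.chr_at trivial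
  have h2 : Continuous (fderiv ℝ (chr G)) := h1.continuous_fderiv (by simp)
  have h3 := h1.continuous
  simp only [secA, curvL_apply]
  fun_prop

variable {p q : ℕ}

/-- the colatitude of the point with coordinates `y` -/
noncomputable def col (N : Sph (q + 1))
    (e : OpenPartialHomeomorph (Sph (q + 1) × Sph p) (Euc (q + 1 + p))) (y : Euc (q + 1 + p)) : ℝ :=
  arccos ⟪N.1, (e.symm y).1.1⟫

theorem chart_polar' (N : Sph (q + 1))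
    {e : OpenPartialHomeomorph (Sph (q + 1) × Sph p) (Euc (q + 1 + p))} (he : EmbChart emb e)
    (y : Euc (q + 1 + p)) (hy : ⟪N.1, (e.symm y).1.1⟫ ∈ Ioo (-1 : ℝ) 1) :
    col N e y ∈ Ioo 0 π ∧ ∃ L : (ℝ × Euc q × Euc p) ≃ₗ[ℝ] Euc (q + 1 + p),
      (∀ (c d : ℝ) u v, Gc (ambB (fun _ => c) (fun _ => 0) (fun _ => d) N.1) emb e y (L u) (L v) =
        c * (u.1 * v.1) + c * sin (col N e y) ^ 2 * ⟪u.2.1, v.2.1⟫ + d * ⟪u.2.2, v.2.2⟫) ∧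
      ∀ a b c χ φ ψ, Slice a b c χ φ ψ → RiemOn (Gc (ambB a b c N.1) emb e) univ →
        (∀ u v, Gc (ambB a b c N.1) emb e y (L u) (L v) = metP χ φ ψ (col N e y) u v) ∧
        (∀ u v, ricA (Gc (ambB a b c N.1) emb e) y (L u) (L v) =
          rho0 p q χ φ ψ (col N e y) * (χ (col N e y) ^ 2 * (u.1 * v.1)) +
          rho1 p q χ φ ψ (col N e y) * (φ (col N e y) ^ 2 * ⟪u.2.1, v.2.1⟫) +
          rho2 p q χ φ ψ (col N e y) * (ψ (col N e y) ^ 2 * ⟪u.2.2, v.2.2⟫)) ∧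
        ∀ u v, secA (Gc (ambB a b c N.1) emb e) y (L u) (L v) = secP χ φ ψ (col N e y) u v := by
  obtain ⟨Ψ, c1, c2, c3, c4⟩ := exists_polar N (e.symm y) hy
  unfold col
  set r := arccos ⟪N.1, (e.symm y).1.1⟫
  have hr : r ∈ Ioo 0 π := ⟨arccos_pos.2 hy.2, arccos_lt_pi.2 hy.1⟩
  have hyt : y ∈ e.target := by rw [he.target]; trivial
  let U : Set (ℝ × Euc q × Euc p) := (Ioo 0 π ×ˢ univ) ∩ Ψ ⁻¹' e.source
  have hU : IsOpen U := (isOpen_Ioo.prod isOpen_univ).inter (e.open_source.preimage c1)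
  have hz : ((r, 0, 0) : ℝ × Euc q × Euc p) ∈ U :=
    ⟨⟨hr, trivial⟩, by rw [mem_preimage, c3]; exact e.map_target hyt⟩
  have hτ := he.comp (U := U) c2.contDiffOn fun z hz => hz.2
  have hτz : (e ∘ Ψ) (r, 0, 0) = y := by rw [Function.comp_apply, c3, e.right_inv hyt]
  have hdim : finrank ℝ (ℝ × Euc q × Euc p) = finrank ℝ (Euc (q + 1 + p)) := by
    simp only [finrank_prod, finrank_self, finrank_euclideanSpace_fin]
    ring
  have hpull : ∀ {a b c χ φ ψ}, Slice a b c χ φ ψ → ∀ z ∈ U, ∀ u v,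
      polG χ φ ψ z u v = Gc (ambB a b c N.1) emb e ((e ∘ Ψ) z)
      (fderiv ℝ (e ∘ Ψ) z u) (fderiv ℝ (e ∘ Ψ) z v) := by
    intro a b c χ φ ψ hS z hz u v
    have k := he.chain hU c2.contDiffOn (fun z hz => hz.2) hz
    rw [Gc_apply, Function.comp_apply, k, k, e.left_inv hz.2, c4 z hz.1.1, polG_apply,
      hS.eqχ _ hz.1.1, hS.eqφ _ hz.1.1, hS.eqψ _ hz.1.1]
  have hG' : ∀ {a b c χ φ ψ}, Slice a b c χ φ ψ → RiemOn (polG χ φ ψ) U := fun hS =>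
    (riemOn_polG (V := Euc q) (W := Euc p) isOpen_Ioo hS.smχ hS.smφ hS.smψ hS.neχ hS.neφ
      hS.neψ).mono hU inter_subset_left
  have hS0 : Slice (fun _ => 1) (fun _ => 0) (fun _ => 1) (fun _ => 1) sin (fun _ => 1) :=
    ⟨contDiffOn_const, contDiff_sin.contDiffOn, contDiffOn_const, fun _ _ => one_ne_zero,
      fun r hr => (sin_pos_of_mem_Ioo hr).ne', fun _ _ => one_ne_zero, fun _ _ => by simp,
      fun _ _ => by simp, fun _ _ => by simp⟩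
  have hbij := pull_surj (hG' hS0) (hpull hS0) hdim hz
  refine ⟨hr, LinearEquiv.ofBijective
    (fderiv ℝ (e ∘ Ψ) (r, 0, 0) : ℝ × Euc q × Euc p →ₗ[ℝ] Euc (q + 1 + p)) hbij,
    fun c d u v => ?_, fun a b c χ φ ψ hS hG => ⟨fun u v => ?_, fun u v => ?_, fun u v => ?_⟩⟩
  · change Gc _ emb e y (fderiv ℝ (e ∘ Ψ) (r, 0, 0) u) (fderiv ℝ (e ∘ Ψ) (r, 0, 0) v) = _
    have k := he.chain hU c2.contDiffOn (fun z hz => hz.2) hz
    rw [← hτz, Gc_apply, Function.comp_apply, k, k, e.left_inv hz.2, c4 _ hr]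
    simp [lam_zero]
  · change Gc (ambB a b c N.1) emb e y (fderiv ℝ (e ∘ Ψ) (r, 0, 0) u)
      (fderiv ℝ (e ∘ Ψ) (r, 0, 0) v) = _
    rw [← hτz, ← hpull hS _ hz, polG_apply]
    simp [lam_zero, metP]
  · change ricA (Gc (ambB a b c N.1) emb e) y (fderiv ℝ (e ∘ Ψ) (r, 0, 0) u)
      (fderiv ℝ (e ∘ Ψ) (r, 0, 0) v) = _
    rw [← hτz, ← pull_ricA hG (hG' hS) hτ (fun _ _ => trivial) (hpull hS) hdim hz,
      ricA_polG isOpen_Ioo hS.smχ hS.smφ hS.smψ hS.neχ hS.neφ hS.neψ hr]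
    simp only [finrank_euclideanSpace_fin]
  · change secA (Gc (ambB a b c N.1) emb e) y (fderiv ℝ (e ∘ Ψ) (r, 0, 0) u)
      (fderiv ℝ (e ∘ Ψ) (r, 0, 0) v) = _
    rw [← hτz, secA, ← pull_curv hG (hG' hS) hτ (fun _ _ => trivial) (hpull hS) hdim hz,
      ← hpull hS _ hz, sec_polG isOpen_Ioo hS.smχ hS.smφ hS.smψ hS.neχ hS.neφ hS.neψ hr]

end Vale.Agent.N244
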