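import Vale.Agent.N244.Defs
import Vale.Agent.N244.Polar
import Vale.Agent.P244I69.Main

/-! P244: the curvature tensor in a chart, Ricci flows given in charts. -/

set_option maxSynthPendingDepth 3
set_option linter.unusedSectionVars false
set_option linter.style.haveILetI false

namespace Vale.Agent.N244

open scoped Manifold ContDiff Topology
open Bundle Filter Set IsManifold Vale.Agent.P211 Vale.Agent.P211Z Vale.Agent.P244I
open Vale.Agent.P244Z.Geo (pd christoffel inChart Tensor RiemOn mat chr curvL ricA ev EmbChart Gc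
  pullT dsymm)
open Vale.Agent.P244Z

noncomputable section

variable {n : ℕ}

theorem euc_ind {P : Euc n → Prop} (h0 : P 0) (h1 : ∀ (c : ℝ) a b, P a → P b → P (c • a + b))
    (h2 : ∀ i, P (ev i)) (a : Euc n) : P a := by
  rw [← Geo.sum_ev a]
  refine Finset.sum_induction _ P (fun x y hx hy => ?_) h0 fun i _ => ?_
  · simpa using h1 1 x y hx hy
  · simpa using h1 (a i) _ _ (h2 i) h0

variable {M : Type} [TopologicalSpace M] [ChartedSpace (Euc n) M] [Smooth (Euc n) M] [T2Space M]
  {e : OpenPartialHomeomorph M (Euc n)} {z : Euc n} {G : Euc n → Geo.Bil (Euc n)}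

section inst

variable [RiemannianBundle fun p : M => TangentSpace 𝓘(ℝ, Euc n) p]
  [IsContMDiffRiemannianBundle 𝓘(ℝ, Euc n) ∞ (Euc n) fun p : M => TangentSpace 𝓘(ℝ, Euc n) p]
  {D : Conn (Euc n) M} {R : Curv (Euc n) M}

theorem curv_lin (hD : IsLC D) (hR : IsCurv D R) (x : M) (c : ℝ) (a b w u : Tan (Euc n) x) :
    R x (c • a + b) w u = c • R x a w u + R x b w u ∧
      R x w (c • a + b) u = c • R x w a u + R x w b u := by
  rw [curv_iff hD] at hR
  obtain ⟨X, rfl⟩ := exists_ext x u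
  obtain ⟨Y, rfl⟩ := exists_ext x a
  obtain ⟨Y', rfl⟩ := exists_ext x b
  obtain ⟨Z, rfl⟩ := exists_ext x w
  constructor
  · refine (hR X (c • Y + Y') Z x).trans ?_
    rw [hR, hR, LC.R_add2, smul_eq, LC.R_smul2, ← smul_eq]
    rfl
  · refine (hR X Z (c • Y + Y') x).trans ?_
    rw [hR, hR, LC.R_add3, smul_eq, LC.R_smul3, ← smul_eq]
    rfl

theorem curv_basis (hD : IsLC D) (hR : IsCurv D R) (he : Mx e) (hz : z ∈ e.target)
    (hG : RiemOn G univ) (hm : inChart (tens M) e = mat G) (i j k : Fin n) :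
    R (e.symm z) (ds e z (ev i)) (ds e z (ev j)) (ds e z (ev k)) =
      ds e z (curvL (chr G) z (ev i) (ev j) (ev k)) := by
  obtain ⟨C, f, h⟩ := exists_coord he hz
  rw [curv_iff hD] at hR
  rw [h.expand he (R _ _ _ _), h.expand he (ds e z (curvL _ _ _ _ _))]
  refine Finset.sum_congr rfl fun m _ => ?_
  congr 1
  have h0 : (lcOf hD).nab ((lcOf hD).brk (C k) (C i)) (C j) (e.symm z) = 0 := by
    change D (C j) (e.symm z) ((lcOf hD).brk (C k) (C i) (e.symm z)) = 0
    rw [h.brk0 hD, map_zero]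
  have hd : DifferentiableAt ℝ (chr G) z := (hG.chr_at trivial).differentiableAt (by simp)
  have h1 : ∀ a k b c, pd a (fun z => chr G z (ev b) (ev c) k) z =
      fderiv ℝ (chr G) z (ev a) (ev b) (ev c) k :=
    fun a k b c => Geo.pd_eq hd ((EuclideanSpace.proj k).comp
      ((ContinuousLinearMap.apply ℝ (Euc n) (ev c)).comp
      (ContinuousLinearMap.apply ℝ (Euc n →L[ℝ] Euc n) (ev b)))) a
  rw [h.coord he, ← h.at, ← h.at, ← h.at, hR, LC.R, ContMDiffSection.coe_sub,
    ContMDiffSection.coe_sub, Pi.sub_apply, Pi.sub_apply, h0, sub_zero, map_sub, h.nab_nab hD he,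
    h.nab_nab hD he, hm]
  simp only [Geo.christoffel_mat hG, h1, Geo.curvL_apply]
  rw [Geo.map_eq_sum (chr G z (ev k)) (chr G z (ev i) (ev j)),
    Geo.map_eq_sum (chr G z (ev i)) (chr G z (ev k) (ev j))]
  simp only [PiLp.sub_apply, PiLp.add_apply, WithLp.ofLp_sum, Finset.sum_apply, PiLp.smul_apply,
    smul_eq_mul, mul_comm]
  ring

theorem curv_chart (hD : IsLC D) (hR : IsCurv D R) (he : Mx e) (hz : z ∈ e.target)
    (hG : RiemOn G univ) (hm : inChart (tens M) e = mat G) (v w u : Euc n) :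
    R (e.symm z) (ds e z v) (ds e z w) (ds e z u) = ds e z (curvL (chr G) z v w u) := by
  have hl := curv_lin hD hR (e.symm z)
  have z1 : ∀ w u, R (e.symm z) 0 w u = 0 := fun w u => by
    have := (hl 1 0 0 w u).1
    rw [one_smul, one_smul, add_zero] at this
    exact left_eq_add.1 this
  have z2 : ∀ w u, R (e.symm z) w 0 u = 0 := fun w u => by
    have := (hl 1 0 0 w u).2
    rw [one_smul, one_smul, add_zero] at this
    exact left_eq_add.1 this
  induction v using euc_ind with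
  | h0 => simp [z1, Geo.curvL_apply]
  | h1 c a b ha hb =>
    rw [map_add, map_smul, (hl _ _ _ _ _).1, ha, hb, ← map_smul, ← map_add]
    congr 1
    simp only [Geo.curvL_apply, map_add, map_smul, add_apply, smul_apply]
    module
  | h2 i =>
    induction w using euc_ind with
    | h0 => simp [z2, Geo.curvL_apply]
    | h1 c a b ha hb =>
      rw [map_add, map_smul, (hl _ _ _ _ _).2, ha, hb, ← map_smul, ← map_add]
      congr 1
      simp only [Geo.curvL_apply, map_add, map_smul]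
      module
    | h2 j =>
      induction u using euc_ind with
      | h0 => simp
      | h1 c a b ha hb => simp only [map_add, map_smul, ha, hb]
      | h2 k => exact curv_basis hD hR he hz hG hm i j k

end inst

variable {g : Met (Euc n) M} {R : Curv (Euc n) M}

theorem ip_chart (hm : inChart (tn g) e = mat G) (a b : Euc n) :
    ip g (e.symm z) (ds e z a) (ds e z b) = G z a b := by
  rw [Geo.bil_eq_sum]
  refine (form_ds (g.inner (e.symm z)) a b).trans ?_
  refine Finset.sum_congr rfl fun i _ => Finset.sum_congr rfl fun j _ => ?_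
  exact congrArg (a i * b j * ·) (congrFun (congrFun (congrFun hm z) i) j)

theorem sec_chart (hR : IsRiem g R) (he : Mx e) (hz : z ∈ e.target) (hG : RiemOn G univ)
    (hm : inChart (tn g) e = mat G) (a b : Euc n) :
    sec g R (e.symm z) (ds e z a) (ds e z b) =
      secA G z a b / (G z a a * G z b b - G z a b ^ 2) := by
  letI := rb g
  obtain ⟨D, h1, h2⟩ := hR
  rw [sec, curv_chart h1.lc h2 he hz hG hm, ip_chart hm, ip_chart hm, ip_chart hm, ip_chart hm]
  rfl

theorem ric_chart' (hR : IsRiem g R) (he : Mx e) (hz : z ∈ e.target) (hG : RiemOn G univ)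
    (hm : inChart (tn g) e = mat G) (a : Euc n) :
    ric g R (e.symm z) (ds e z a) = ricA G z a a / G z a a := by
  letI := rb g
  obtain ⟨D, h1, h2⟩ := hR
  have hs : Function.Surjective (ds e z) := ds_surj he hz
  let E : Euc n ≃ₗ[ℝ] Tan (Euc n) (e.symm z) := LinearEquiv.ofBijective
    (ds e z : Euc n →ₗ[ℝ] Tan (Euc n) (e.symm z))
    ⟨(md_chart he).symm.mfderiv_injective hz, hs⟩
  rw [ric, ip_chart hm, ricA, ← LinearMap.trace_conj' _ E, tr]
  congr 2
  refine LinearMap.ext fun u => ?_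
  obtain ⟨b, rfl⟩ := E.surjective u
  rw [LinearEquiv.conj_apply_apply, E.symm_apply_apply]
  exact curv_chart h1.lc h2 he hz hG hm a a b

theorem area_nonneg (hG : RiemOn G univ) (y a b : Euc n) :
    0 ≤ G y a a * G y b b - G y a b ^ 2 := by
  have h0 : ∀ v, 0 ≤ G y v v := fun v => by
    rcases eq_or_ne v 0 with rfl | hv
    · simp
    · exact (hG.pos y trivial v hv).le
  have := discrim_le_zero (a := G y a a) (b := 2 * G y a b) (c := G y b b) fun t => by
    have h := h0 (t • a + b)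
    simp only [map_add, map_smul, add_apply, smul_apply, smul_eq_mul, hG.symm y trivial b a] at h
    linarith
  unfold discrim at this
  linarith

theorem div_bound {x A w C : ℝ} (hA : 0 ≤ A) (hC : 0 ≤ C) (h : |x| * w ≤ C * A) :
    |x / A| * w ≤ C := by
  rcases hA.eq_or_lt with rfl | hA
  · simpa using hC
  · rwa [abs_div, abs_of_pos hA, div_mul_eq_mul_div, div_le_iff₀ hA]

section Emb

variable {A : Type} [NormedAddCommGroup A] [NormedSpace ℝ A] {ι : M → A}

/-- A family of ambient forms which gives a Ricci flow in the charts gives a Ricci flow. -/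
theorem flow_of_emb (h : ∀ e ∈ atlas (Euc n) M, EmbChart ι e) (B : ℝ → A → Geo.Bil A) {T : ℝ}
    (hT : 0 < T) (h1 : ∀ e ∈ atlas (Euc n) M, ∀ t ∈ Ico 0 T, RiemOn (Gc (B t) ι e) univ)
    (h2 : ∀ e ∈ atlas (Euc n) M, ∀ u v,
      ContDiffOn ℝ ∞ (fun z : ℝ × Euc n => Gc (B z.1) ι e z.2 u v) (Ico 0 T ×ˢ univ))
    (h3 : ∀ e ∈ atlas (Euc n) M, ∀ t ∈ Ico 0 T, ∀ y u v,
      HasDerivAt (fun s => Gc (B s) ι e y u v) (-2 * ricA (Gc (B t) ι e) y u v) t)
    (h5 : ∃ e ∈ atlas (Euc n) M, ∃ y ξ, ξ ≠ 0 ∧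
      ∀ ε > 0, ∃ᶠ t in 𝓝[<] T, Gc (B t) ι e y ξ ξ < ε) :
    ∃ g : ℝ → Met (Euc n) M, IsRicciFlow g T ∧ ¬ ExtendsPast g T ∧
      ∀ t ∈ Ico 0 T, ∀ e ∈ atlas (Euc n) M, inChart (tn (g t)) e = mat (Gc (B t) ι e) := by
  have hpt : ∀ x : M, ∃ e ∈ atlas (Euc n) M, ∃ y, x = e.symm y ∧
      Function.Surjective (dsymm e y) := by
    intro x
    have he := chart_mem_atlas (Euc n) x
    have hx := mem_chart_source (Euc n) x
    exact ⟨_, he, chartAt (Euc n) x x, ((chartAt (Euc n) x).left_inv hx).symm,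
      (mdifferentiable_of_mem_atlas (I := 𝓡 n) he).symm.mfderiv_surjective
        ((chartAt (Euc n) x).map_source hx)⟩
  have hF : Geo.IsRicciFlow (fun t => pullT n (B t) ι) T := by
    refine ⟨fun t ht x => ⟨fun u => ?_, ?_, ?_⟩, ?_, ?_⟩
    · exact ((B t (ι x) (Geo.dι n ι x u)).comp (Geo.dι n ι x)).toLinearMap.isLinear
    · intro u v
      obtain ⟨e, he, y, rfl, hs⟩ := hpt x
      obtain ⟨a, rfl⟩ := hs u
      obtain ⟨b, rfl⟩ := hs v
      rw [Geo.pullT_chart h _ he, Geo.pullT_chart h _ he]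
      exact (h1 e he t ht).symm y trivial a b
    · intro v hv
      obtain ⟨e, he, y, rfl, hs⟩ := hpt x
      obtain ⟨a, rfl⟩ := hs v
      rw [Geo.pullT_chart h _ he]
      refine (h1 e he t ht).pos y trivial a ?_
      rintro rfl
      exact hv (map_zero _)
    · intro e he i j
      simp only [Geo.inChart_pullT h _ he, (h e he).target]
      exact h2 e he _ _
    · intro e he t ht y _ i j
      simp only [Geo.inChart_pullT h _ he, Geo.ricci_mat (h1 e he t ht)]
      exact (h3 e he t ht y _ _).hasDerivWithinAt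
  have k0 : ∀ t ∈ Ico 0 T, ∃ m : Met (Euc n) M, tn m = pullT n (B t) ι := fun t ht =>
    ⟨toMet _ (hF.metric t ht) fun e he i j => (hF.smooth e he i j).comp
      (contDiffOn_const.prodMk contDiffOn_id) fun y hy => ⟨ht, hy⟩, rfl⟩
  obtain ⟨m₀, -⟩ := k0 0 ⟨le_rfl, hT⟩
  have : Nonempty (Met (Euc n) M) := ⟨m₀⟩
  choose! g hg using k0
  have hc : ∀ t ∈ Ico 0 T, ∀ e ∈ atlas (Euc n) M, inChart (tn (g t)) e = mat (Gc (B t) ι e) :=
    fun t ht e he => by rw [hg t ht, Geo.inChart_pullT h _ he]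
  refine ⟨g, flow_of_chart (chart_congr hF hg), ?_, hc⟩
  rintro ⟨ε, hε, g', hg', hgg⟩
  obtain ⟨e, he, y, ξ, hξ, hfr⟩ := h5
  have hy : y ∈ e.target := by rw [(h e he).target]; trivial
  have hTm : T ∈ Ico 0 (T + ε) := ⟨hT.le, by linarith⟩
  obtain ⟨R', -, hR'⟩ := hg'.2 T hTm
  have k2 : ContinuousAt (fun t => ip (g' t) (e.symm y) (ds e y ξ) (ds e y ξ)) T :=
    (hR' _ _ _).continuousWithinAt.continuousAt (Ico_mem_nhds hT (by linarith))
  have k3 : 0 < ip (g' T) (e.symm y) (ds e y ξ) (ds e y ξ) := by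
    refine (g' T).pos _ _ fun h0 => hξ ?_
    refine (mdifferentiable_of_mem_atlas (I := 𝓡 n) he).symm.mfderiv_injective hy ?_
    exact h0.trans (map_zero _).symm
  have k4 := (k2.eventually (lt_mem_nhds (half_lt_self k3))).filter_mono
    (nhdsWithin_le_nhds (s := Iio T))
  obtain ⟨t, t1, t2, t3⟩ := ((hfr _ (half_pos k3)).and_eventually
    (k4.and (Ico_mem_nhdsLT hT))).exists
  rw [hgg t t3, ip_chart (hc t t3 e he)] at t2
  exact lt_asymm t1 t2

end Emb

end

end Vale.Agent.N244
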