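import Vale.Agent.N244.Data
import Vale.Agent.N244.Polar

/-! P244: the estimates in the fixed coordinate and the physical time. -/

open Set Real Filter Topology
open scoped ContDiff

namespace Vale.Agent.N244

open Vale.Agent.P244Z Vale.Agent.P244Z.Q
open Vale.Agent.P244Z.Geo (WarpR ds rho0 rho1 rho2)

/-- the scalar curvature of the warped metric -/
noncomputable def scalW (q : ℕ) (χ φ ψ : ℝ → ℝ) (r : ℝ) : ℝ :=
  rho0 2 q χ φ ψ r + q * rho1 2 q χ φ ψ r + (2 : ℕ) * rho2 2 q χ φ ψ r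

/-- a doubly warped Ricci flow with the estimates -/
structure Est (q : ℕ) (T N : ℝ) (χ φ ψ : ℝ → ℝ → ℝ) : Prop where
  T_pos : 0 < T
  W : WarpR 2 q T χ φ ψ
  sec : ∃ C, ∀ t ∈ Ioo 0 T, ∀ r ∈ Ioo 0 π, ψ t r ^ 2 * |kR (χ t) (φ t) r| ≤ C ∧
    ψ t r ^ 2 * |kR (χ t) (ψ t) r| ≤ C ∧ ψ t r ^ 2 * |kS (χ t) (φ t) r| ≤ C ∧
    ψ t r ^ 2 * |kS (χ t) (ψ t) r| ≤ C ∧ ψ t r ^ 2 * |kM (χ t) (φ t) (ψ t) r| ≤ C
  ric : ∃ C, ∀ t ∈ Ioo 0 T, ∀ r ∈ Ioo 0 π,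
    ψ t r ^ (5 / 6 : ℝ) * |rho0 2 q (χ t) (φ t) (ψ t) r| ≤ C ∧
    ψ t r ^ (5 / 6 : ℝ) * |rho1 2 q (χ t) (φ t) (ψ t) r| ≤ C ∧
    ψ t r ^ (5 / 6 : ℝ) * |rho2 2 q (χ t) (φ t) (ψ t) r| ≤ C
  scal : ∀ t ∈ Ioo 0 T, ∀ r ∈ Ioo 0 π, |scalW q (χ t) (φ t) (ψ t) r| ≤ N
  low : ∃ C > 0, ∀ t ∈ Ioo 0 T, ∀ r ∈ Ioo 0 π, (T - t) ^ 3 ≤ C * ψ t r ^ 2
  pole : ∃ C > 0, ∀ t ∈ Ioo 0 T, ψ t 0 ^ 2 ≤ C * (T - t) ^ (59 / 20 : ℝ)
  up : ∃ B > 0, ∀ t ∈ Ioo 0 T, ∀ r ∈ Ioo 0 π, φ t r ≤ B * ψ t r ∧ ψ t r ≤ B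
  mono : ∃ δ > 0, ∀ t ∈ Ioo 0 T, ∀ r ∈ Ioc 0 (π / 2), φ t r ≤ δ →
    ∀ s ∈ Icc 0 r, φ t s ≤ φ t r ∧ 1 / 2 ≤ ds (χ t) (φ t) s

variable {K : Consts} {S : Q.Data} {J : Set ℝ} {T : ℝ} {g : ℝ → ℝ} {Θ : ℝ × ℝ → ℝ}

theorem time_eq (hS : Sing K S J) (h : Chart S J T g Θ)
    (hb : ∀ s0 < T, ∃ t0 ∈ J, ∀ t ∈ J, t0 ≤ t → ∃ s ∈ Ioo 0 T, s0 < s ∧ g s = t) {s : ℝ}
    (hs : s ∈ Ioo 0 T) : S.sg (g s) = T - s := by
  have hd : ∀ s ∈ Ioo 0 T, HasDerivAt (fun s => S.sg (g s) + s) 0 s := fun s hs => by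
    have h1 := (HasDerivAt.comp s (h₂ := S.sg) (h := g)
      (hS.sol.hasDerivAt_sg (h.mem s hs) (h.pos s hs)) (h.dg s hs)).add (hasDerivAt_id s)
    refine HasDerivAt.congr_deriv h1 ?_
    have := (hS.sol.l_pos _ (h.mem s hs)).ne'
    field_simp
    ring
  have hc : ∀ a ∈ Ioo 0 T, S.sg (g a) + a = S.sg (g s) + s := fun a ha =>
    isOpen_Ioo.is_const_of_deriv_eq_zero isPreconnected_Ioo
      (fun x hx => (hd x hx).differentiableAt.differentiableWithinAt)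
      (fun x hx => (hd x hx).deriv) ha hs
  have h1 : T ≤ S.sg (g s) + s := le_of_forall_lt fun s0 hs0 => by
    obtain ⟨t0, ht0, h2⟩ := hb s0 hs0
    obtain ⟨a, ha, h3, -⟩ := h2 t0 ht0 le_rfl
    linarith [hc a ha, hS.pos _ (h.mem a ha)]
  have h2 : S.sg (g s) + s ≤ T := le_of_forall_pos_le_add fun m hm => by
    obtain ⟨t0, ht0, h2⟩ := hb 0 (hs.1.trans hs.2)
    obtain ⟨t, ht, h3⟩ := hS.small m hm
    have hm : max t t0 ∈ J := by rcases max_choice t t0 with h | h <;> rwa [h]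
    obtain ⟨a, ha, -, h4⟩ := h2 _ hm (le_max_right _ _)
    have h5 := hS.sol.sg_strictAnti.antitoneOn ht hm (le_max_left _ _)
    have h6 := hc a ha
    rw [h4] at h6
    linarith [ha.2]
  linarith

theorem Sing.est (hS : Sing K S J) : ∃ T χ φ ψ, Est S.q T K.N χ φ ψ := by
  have hs := hS.sol
  obtain ⟨T, hT, g, Θ, h, hb⟩ := hs.exists_chart fun t ht => (hS.pos t ht).le
  have hq : (10000 : ℝ) ≤ S.q := by rw [hS.q_eq]; exact hS.ok.q_geR
  have hψ : ContDiffOn ℝ ∞ (fun p => exp (S.u p)) (univ ×ˢ J) := hs.sm_u.exp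
  have hΘ0 : ∀ s ∈ Ioo 0 T, Θ (0, g s) = 0 := fun s hs => by
    have := h.odd 0 s hs
    rw [neg_zero] at this
    linarith
  set χ := pchi S g Θ with hχ
  set φ := fpull g Θ S.φ with hφ
  set ψ := fpull g Θ fun p => exp (S.u p) with hψ'
  have e1 : ∀ s ∈ Ioo 0 T, ∀ r, ds (χ s) (φ s) r = S.A (Θ (r, g s), g s) := fun s ht r =>
    congrFun (h.wD_pull hs hs.sm_φ ht) r
  have key : ∀ s ∈ Ioo 0 T, ∀ r ∈ Ioo 0 π, ∃ θ ∈ Ioo 0 π, ∃ t ∈ J, θ = Θ (r, g s) ∧ t = g s ∧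
      φ s r = S.φ (θ, t) ∧ ψ s r = exp (S.u (θ, t)) ∧
      kR (χ s) (φ s) r = -S.hh (θ, t) ∧
      kR (χ s) (ψ s) r = -(S.Ds S.β (θ, t) + S.β (θ, t) ^ 2) ∧ kS (χ s) (φ s) r = S.kk (θ, t) ∧
      kS (χ s) (ψ s) r = exp (-2 * S.u (θ, t)) - S.β (θ, t) ^ 2 ∧
      kM (χ s) (φ s) (ψ s) r = -(S.A (θ, t) * S.vv (θ, t)) ∧
      rho0 2 S.q (χ s) (φ s) (ψ s) r = S.a (θ, t) ∧ rho1 2 S.q (χ s) (φ s) (ψ s) r = S.b (θ, t) ∧
      rho2 2 S.q (χ s) (φ s) (ψ s) r = S.c (θ, t) := fun s ht r hr => by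
    have m := h.mem s ht
    have e2 : ds (χ s) (ds (χ s) (φ s)) r = S.φ (Θ (r, g s), g s) * S.hh (Θ (r, g s), g s) :=
      (congrFun (h.wD_wD_pull hs hs.sm_φ ht) r).trans (hs.hh_eq _ _ m).symm
    have e3 : ds (χ s) (ψ s) r = exp (S.u (Θ (r, g s), g s)) * S.β (Θ (r, g s), g s) :=
      (congrFun (h.wD_pull hs hψ ht) r).trans (hs.Ds_exp _ m)
    have e4 : ds (χ s) (ds (χ s) (ψ s)) r = exp (S.u (Θ (r, g s), g s)) *
        (S.Ds S.β (Θ (r, g s), g s) + S.β (Θ (r, g s), g s) ^ 2) :=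
      (congrFun (h.wD_wD_pull hs hψ ht) r).trans (hs.Ds_Ds_exp _ m)
    have p0 := hs.φ_pos _ (h.ioo r hr s ht) _ m
    have hk := hs.kk_eq (Θ (r, g s)) _ m
    have hv := hs.vv_eq (Θ (r, g s)) _ m
    have f1 : φ s r = S.φ (Θ (r, g s), g s) := rfl
    have f2 : ψ s r = exp (S.u (Θ (r, g s), g s)) := rfl
    refine ⟨_, h.ioo r hr s ht, _, m, rfl, rfl, rfl, rfl, ?_⟩
    simp only [kR, kS, kM, rho0, rho1, rho2, e1 s ht, e2, e3, e4, f1, f2, Q.Data.a, Q.Data.b,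
      Q.Data.c]
    generalize (Θ (r, g s), g s) = p at *
    have := exp_pos (S.u p)
    have e5 : exp (-2 * S.u p) = (exp (S.u p) ^ 2)⁻¹ := by
      rw [← exp_nat_mul, ← exp_neg]; congr 1; push_cast; ring
    have e6 : S.vv p = S.β p / S.φ p := by rw [← hv]; field_simp
    rw [← hk, e5, e6]
    push_cast
    refine ⟨?_, ?_, ?_, ?_, ?_, ?_, ?_, ?_⟩ <;> field_simp <;> ring
  have hq1 : 1 ≤ √((S.q : ℝ) - 1) := by rw [one_le_sqrt]; linarith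
  have hψρ : ∀ p, exp (S.u p) ≤ S.ρ p := fun p => le_mul_of_one_le_left (exp_pos _).le hq1
  refine ⟨T, χ, φ, ψ, hT, ⟨h.sm_pchi hs, h.sm_pull hs hs.sm_φ, h.sm_pull hs hψ,
    fun s ht r => ?_, fun s ht r => ?_, fun s ht r => ?_, fun s ht r => ?_, fun s ht r => ?_,
    fun s ht r => ?_, fun s ht r _ => ?_, fun s ht r hr => ?_, fun s ht r _ => exp_pos _,
    fun s ht => ?_, fun s ht r hr => ?_, fun s ht r hr => ?_, fun s ht r hr => ?_⟩,
    ?_, ?_, fun s ht r hr => ?_, ?_, ?_, ?_, ?_⟩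
  · have h1 : (fun x => Θ (-x, g s)) = fun x => -Θ (x, g s) := funext fun x => h.odd x s ht
    have h2 := deriv_comp_neg (fun x => Θ (x, g s)) r
    rw [h1, deriv.fun_neg, neg_inj] at h2
    simp only [hχ, pchi, d1]
    rw [h2]
  · simp only [hφ, fpull]
    rw [h.odd r s ht, hs.φ_odd _ _ (h.mem s ht)]
  · simp only [hψ', fpull]
    rw [h.odd r s ht, hs.u_even _ _ (h.mem s ht)]
  · have h1 : (fun x => Θ (π - x, g s)) = fun x => π - Θ (x, g s) := funext fun x => h.sym x s ht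
    have h2 := deriv_comp_const_sub (fun x => Θ (x, g s)) π r
    rw [h1, deriv_const_sub, neg_inj] at h2
    simp only [hχ, pchi, d1]
    rw [h2]
  · simp only [hφ, fpull]
    rw [h.sym r s ht, hs.φ_sym _ _ (h.mem s ht)]
  · simp only [hψ', fpull]
    rw [h.sym r s ht, hs.u_sym _ _ (h.mem s ht)]
  · exact mul_pos (hs.l_pos _ (h.mem s ht)) (h.dpos r s ht)
  · exact hs.φ_pos _ (h.ioo r hr s ht) _ (h.mem s ht)
  · have h1 := e1 s ht 0
    rw [hΘ0 s ht, hs.A_zero _ (h.mem s ht)] at h1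
    exact (div_eq_one_iff_eq (mul_pos (hs.l_pos _ (h.mem s ht)) (h.dpos 0 s ht)).ne').1 h1
  · obtain ⟨θ, -, t, -, rfl, rfl, -, -, -, -, -, -, -, k, -, -⟩ := key s ht r hr
    rw [k]
    exact h.dt_pchi hs ht hr
  · obtain ⟨θ, hθ, t, m, rfl, rfl, f, -, -, -, -, -, -, -, k, -⟩ := key s ht r hr
    rw [k, f, ← hs.eq_φ _ hθ _ m (h.pos s ht)]
    exact h.dt_pull hs hs.sm_φ ht r
  · obtain ⟨θ, hθ, t, m, rfl, rfl, -, f, -, -, -, -, -, -, -, k⟩ := key s ht r hr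
    rw [k, f, ← hs.eq_u _ hθ _ m (h.pos s ht), mul_comm, ← hs.Dt_exp _ m (h.pos s ht)]
    exact h.dt_pull hs hψ ht r
  · obtain ⟨C, hC⟩ := hS.sec
    refine ⟨C, fun s ht r hr => ?_⟩
    obtain ⟨θ, hθ, t, m, -, -, -, f, k1, k2, k3, k4, k5, -⟩ := key s ht r hr
    have w : exp (S.u (θ, t)) ^ 2 ≤ S.ρ (θ, t) ^ 2 := pow_le_pow_left₀ (exp_pos _).le (hψρ _) 2
    obtain ⟨c1, c2, c3, c4, c5⟩ := hC θ hθ t m
    simp only [f, k1, k2, k3, k4, k5, abs_neg]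
    exact ⟨(mul_le_mul_of_nonneg_right w (abs_nonneg _)).trans c1,
      (mul_le_mul_of_nonneg_right w (abs_nonneg _)).trans c2,
      (mul_le_mul_of_nonneg_right w (abs_nonneg _)).trans c3,
      (mul_le_mul_of_nonneg_right w (abs_nonneg _)).trans c4,
      (mul_le_mul_of_nonneg_right w (abs_nonneg _)).trans c5⟩
  · obtain ⟨C, hC⟩ := hS.ric
    refine ⟨C, fun s ht r hr => ?_⟩
    obtain ⟨θ, hθ, t, m, -, -, -, f, -, -, -, -, -, k1, k2, k3⟩ := key s ht r hr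
    have w : exp (S.u (θ, t)) ^ (5 / 6 : ℝ) ≤ S.ρ (θ, t) ^ (5 / 6 : ℝ) :=
      rpow_le_rpow (exp_pos _).le (hψρ _) (by norm_num)
    obtain ⟨c1, c2, c3⟩ := hC θ hθ t m
    simp only [f, k1, k2, k3]
    exact ⟨(mul_le_mul_of_nonneg_right w (abs_nonneg _)).trans c1,
      (mul_le_mul_of_nonneg_right w (abs_nonneg _)).trans c2,
      (mul_le_mul_of_nonneg_right w (abs_nonneg _)).trans c3⟩
  · obtain ⟨θ, hθ, t, m, -, -, -, -, -, -, -, -, -, k1, k2, k3⟩ := key s ht r hr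
    have := (hS.at hθ m).1.R
    rw [scalW, k1, k2, k3]
    simpa [Q.Data.R] using this
  · have ha := hS.ok.am_pos
    refine ⟨2 * (S.q - 1) / K.am, div_pos (by linarith) ha, fun s ht r hr => ?_⟩
    obtain ⟨θ, hθ, t, m, -, rfl, -, f, -⟩ := key s ht r hr
    have h1 := (hS.at hθ m).1.rho
    rw [Q.Data.σ, time_eq hS h hb ht, Q.Data.ρ, mul_pow, sq_sqrt (by linarith)] at h1
    rw [f, div_mul_eq_mul_div, le_div_iff₀ ha]
    linarith
  · refine ⟨1, one_pos, fun s ht => ?_⟩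
    have h1 := hS.pole (h.mem s ht)
    rw [time_eq hS h hb ht] at h1
    have f : ψ s 0 = exp (S.u (0, g s)) := by simp only [hψ', fpull, hΘ0 s ht]
    rw [f, one_mul]
    exact (pow_le_pow_left₀ (exp_pos _).le (hψρ _) 2).trans h1
  · refine ⟨2 * √((S.q : ℝ) - 1), by linarith, fun s ht r hr => ?_⟩
    obtain ⟨θ, hθ, t, m, -, -, f1, f2, -⟩ := key s ht r hr
    have h1 := (hS.at hθ m).2.1
    have h2 := S.ρ_pos hS.two (θ, t)
    rw [f1, f2, mul_assoc]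
    exact ⟨abs_le_of_sq_le_sq' (by change _ ≤ (2 * S.ρ _) ^ 2; nlinarith [h1.φ_sq_le])
      (by change _ ≤ 2 * S.ρ _; linarith) |>.2, by linarith [hψρ (θ, t), h1.ρ_le]⟩
  · refine ⟨K.δ, hS.ok.δ_pos, fun s ht r hr hδ a ha => ?_⟩
    have m := h.mem s ht
    have hm : StrictMono fun x => Θ (x, g s) :=
      strictMono_of_deriv_pos fun x => by rw [(h.dr x ht).deriv]; exact h.dpos x s ht
    have h2 : Θ (π / 2, g s) = π / 2 := by
      have := h.sym (π / 2) s ht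
      rw [show π - π / 2 = π / 2 by ring] at this
      linarith
    have h3 : Θ (r, g s) ∈ Ioc 0 (π / 2) :=
      ⟨hΘ0 s ht ▸ hm hr.1, h2 ▸ hm.monotone hr.2⟩
    have h4 := (((hS.good _ m).2.1 _ ⟨hs.time.nonneg _ m, le_rfl⟩) _ h3 hδ).2 (Θ (a, g s))
      ⟨hΘ0 s ht ▸ hm.monotone ha.1, hm.monotone ha.2⟩
    have h5 : 21 / (K.q : ℝ) ≤ 1 / 2 := by
      rw [← hS.q_eq, div_le_iff₀ (by linarith)]; linarith
    exact ⟨h4.1, by rw [e1 s ht]; linarith [h4.2]⟩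

theorem exists_est {q : ℕ} (hq : 10000 ≤ q) : ∃ T N χ φ ψ, Est q T N χ φ ψ := by
  obtain ⟨K, S, J, rfl, h⟩ := exists_sing hq
  obtain ⟨T, χ, φ, ψ, h1⟩ := h.est
  exact ⟨T, _, χ, φ, ψ, h.q_eq ▸ h1⟩

section Scale

variable {k : ℝ} {a b c : ℝ → ℝ}

theorem ds_sc1 (hk : k ≠ 0) (a b : ℝ → ℝ) : ds (fun r => k * a r) (fun r => k * b r) = ds a b := by
  funext r
  simp only [ds, deriv_const_mul_field']
  exact mul_div_mul_left _ _ hk

theorem ds_sc2 (a b : ℝ → ℝ) (r : ℝ) : ds (fun r => k * a r) b r = ds a b r / k := by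
  simp only [ds]
  rw [div_div, mul_comm]

theorem sc_all (hk : k ≠ 0) (q : ℕ) (a b c : ℝ → ℝ) (r : ℝ) :
    kR (fun r => k * a r) (fun r => k * b r) r = kR a b r / k ^ 2 ∧
    kS (fun r => k * a r) (fun r => k * b r) r = kS a b r / k ^ 2 ∧
    kM (fun r => k * a r) (fun r => k * b r) (fun r => k * c r) r = kM a b c r / k ^ 2 ∧
    rho0 2 q (fun r => k * a r) (fun r => k * b r) (fun r => k * c r) r = rho0 2 q a b c r / k ^ 2 ∧
    rho1 2 q (fun r => k * a r) (fun r => k * b r) (fun r => k * c r) r = rho1 2 q a b c r / k ^ 2 ∧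
    rho2 2 q (fun r => k * a r) (fun r => k * b r) (fun r => k * c r) r =
      rho2 2 q a b c r / k ^ 2 := by
  simp only [kR, kS, kM, rho0, rho1, rho2, ds_sc1 hk]
  simp only [ds_sc2]
  refine ⟨?_, ?_, ?_, ?_, ?_, ?_⟩ <;> ring

/-- parabolic scaling -/
noncomputable def sc (k : ℝ) (f : ℝ → ℝ → ℝ) (t : ℝ) : ℝ → ℝ := fun r => k * f (t / k ^ 2) r

variable {q : ℕ} {N : ℝ} {χ φ ψ : ℝ → ℝ → ℝ}

theorem Est.scale (h : Est q T N χ φ ψ) (hk : 0 < k) :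
    Est q (k ^ 2 * T) (N / k ^ 2) (sc k χ) (sc k φ) (sc k ψ) := by
  have k2 : 0 < k ^ 2 := by positivity
  have hm : ∀ t ∈ Ioo 0 (k ^ 2 * T), t / k ^ 2 ∈ Ioo 0 T := fun t ht =>
    ⟨div_pos ht.1 k2, by rw [div_lt_iff₀' k2]; exact ht.2⟩
  have sm : ∀ f : ℝ → ℝ → ℝ, ContDiffOn ℝ ∞ (fun z : ℝ × ℝ => f z.1 z.2) (Ioo 0 T ×ˢ univ) →
      ContDiffOn ℝ ∞ (fun z : ℝ × ℝ => sc k f z.1 z.2) (Ioo 0 (k ^ 2 * T) ×ˢ univ) := fun f hf =>
    contDiffOn_const.mul (hf.comp (f := fun z : ℝ × ℝ => (z.1 / k ^ 2, z.2)) (by fun_prop)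
      fun z hz => ⟨hm _ hz.1, trivial⟩)
  have dt : ∀ (f : ℝ → ℝ → ℝ) (t r x : ℝ),
      HasDerivAt (fun s => f s r) (-x * f (t / k ^ 2) r) (t / k ^ 2) →
      HasDerivAt (fun s => sc k f s r) (-(x / k ^ 2) * sc k f t r) t := fun f t r x hf => by
    refine HasDerivAt.congr_deriv ((HasDerivAt.comp t (h₂ := fun s => f s r)
      (h := fun s => s / k ^ 2) hf ((hasDerivAt_id t).div_const _)).const_mul k) ?_
    simp only [sc]
    ring
  have e := fun t => sc_all hk.ne' q (χ (t / k ^ 2)) (φ (t / k ^ 2)) (ψ (t / k ^ 2))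
  have e' := fun t => sc_all hk.ne' q (χ (t / k ^ 2)) (ψ (t / k ^ 2)) (ψ (t / k ^ 2))
  have eT : ∀ t, k ^ 2 * T - t = k ^ 2 * (T - t / k ^ 2) := fun t => by field_simp
  have hW := h.W
  refine ⟨mul_pos k2 h.T_pos, ⟨sm _ hW.smχ, sm _ hW.smφ, sm _ hW.smψ, fun t ht r => ?_,
    fun t ht r => ?_, fun t ht r => ?_, fun t ht r => ?_, fun t ht r => ?_, fun t ht r => ?_,
    fun t ht r hr => mul_pos hk (hW.χ_pos _ (hm t ht) r hr),
    fun t ht r hr => mul_pos hk (hW.φ_pos _ (hm t ht) r hr),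
    fun t ht r hr => mul_pos hk (hW.ψ_pos _ (hm t ht) r hr), fun t ht => ?_,
    fun t ht r hr => ?_, fun t ht r hr => ?_, fun t ht r hr => ?_⟩, ?_, ?_, fun t ht r hr => ?_,
    ?_, ?_, ?_, ?_⟩
  · simp only [sc, hW.χ_even _ (hm t ht)]
  · simp only [sc, hW.φ_odd _ (hm t ht), mul_neg]
  · simp only [sc, hW.ψ_even _ (hm t ht)]
  · simp only [sc, hW.χ_sym _ (hm t ht)]
  · simp only [sc, hW.φ_sym _ (hm t ht)]
  · simp only [sc, hW.ψ_sym _ (hm t ht)]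
  · unfold sc
    rw [deriv_const_mul_field, hW.pole _ (hm t ht)]
  · exact (e t r).2.2.2.1 ▸ dt χ t r _ (hW.eqχ _ (hm t ht) r hr)
  · exact (e t r).2.2.2.2.1 ▸ dt φ t r _ (hW.eqφ _ (hm t ht) r hr)
  · exact (e t r).2.2.2.2.2 ▸ dt ψ t r _ (hW.eqψ _ (hm t ht) r hr)
  · obtain ⟨C, hC⟩ := h.sec
    refine ⟨C, fun t ht r hr => ?_⟩
    have w : ∀ x, (k * ψ (t / k ^ 2) r) ^ 2 * |x / k ^ 2| = ψ (t / k ^ 2) r ^ 2 * |x| := fun x => by
      rw [abs_div, abs_of_pos k2]; field_simp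
    unfold sc
    rw [(e t r).1, (e' t r).1, (e t r).2.1, (e' t r).2.1, (e t r).2.2.1, w, w, w, w, w]
    exact hC _ (hm t ht) r hr
  · obtain ⟨C, hC⟩ := h.ric
    refine ⟨k ^ (5 / 6 : ℝ) / k ^ 2 * C, fun t ht r hr => ?_⟩
    have w : ∀ x, ψ (t / k ^ 2) r ^ (5 / 6 : ℝ) * |x| ≤ C →
        (k * ψ (t / k ^ 2) r) ^ (5 / 6 : ℝ) * |x / k ^ 2| ≤ k ^ (5 / 6 : ℝ) / k ^ 2 * C :=
      fun x hx => by
        rw [abs_div, abs_of_pos k2,
          mul_rpow hk.le (hW.ψ_pos _ (hm t ht) r (Ioo_subset_Icc_self hr)).le]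
        refine le_of_eq_of_le ?_ (mul_le_mul_of_nonneg_left hx (by positivity))
        ring
    unfold sc
    rw [(e t r).2.2.2.1, (e t r).2.2.2.2.1, (e t r).2.2.2.2.2]
    obtain ⟨c1, c2, c3⟩ := hC _ (hm t ht) r hr
    exact ⟨w _ c1, w _ c2, w _ c3⟩
  · have := h.scal _ (hm t ht) r hr
    unfold scalW sc at *
    rw [(e t r).2.2.2.1, (e t r).2.2.2.2.1, (e t r).2.2.2.2.2, ← mul_div_assoc, ← mul_div_assoc,
      ← add_div, ← add_div, abs_div, abs_of_pos k2]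
    exact div_le_div_of_nonneg_right this k2.le
  · obtain ⟨C, C0, hC⟩ := h.low
    refine ⟨k ^ 4 * C, by positivity, fun t ht r hr => ?_⟩
    have := mul_le_mul_of_nonneg_left (hC _ (hm t ht) r hr) (by positivity : 0 ≤ k ^ 6)
    rw [eT, sc]
    linarith
  · obtain ⟨C, C0, hC⟩ := h.pole
    refine ⟨k ^ 2 * C / (k ^ 2) ^ (59 / 20 : ℝ), by positivity, fun t ht => ?_⟩
    have := mul_le_mul_of_nonneg_left (hC _ (hm t ht)) k2.le
    rw [eT, sc, mul_rpow k2.le (by linarith [(hm t ht).2]), ← mul_assoc,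
      div_mul_cancel₀ _ (by positivity)]
    linarith
  · obtain ⟨B, B0, hB⟩ := h.up
    refine ⟨B + k * B, by positivity, fun t ht r hr => ?_⟩
    obtain ⟨h1, h2⟩ := hB _ (hm t ht) r hr
    have h3 := hW.ψ_pos _ (hm t ht) r (Ioo_subset_Icc_self hr)
    have h4 := mul_le_mul_of_nonneg_left h1 hk.le
    have h5 := mul_le_mul_of_nonneg_left h2 hk.le
    have h6 : 0 ≤ k * B * (k * ψ (t / k ^ 2) r) := by positivity
    simp only [sc]
    constructor <;> nlinarith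
  · obtain ⟨δ, δ0, hδ⟩ := h.mono
    refine ⟨k * δ, by positivity, fun t ht r hr h1 s hs => ?_⟩
    obtain ⟨h2, h3⟩ := hδ _ (hm t ht) r hr (le_of_mul_le_mul_left h1 hk) s hs
    unfold sc
    exact ⟨mul_le_mul_of_nonneg_left h2 hk.le, by rwa [ds_sc1 hk.ne']⟩

/-- the volume density -/
noncomputable def den (q : ℕ) (χ φ ψ : ℝ → ℝ → ℝ) (t r : ℝ) : ℝ := χ t r * φ t r ^ q * ψ t r ^ 2

theorem Est.den_cmp (h : Est q T N χ φ ψ) {s t r : ℝ} (hs : s ∈ Ioo 0 T) (ht : t ∈ Ioo 0 T)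
    (hr : r ∈ Ioo 0 π) : den q χ φ ψ t r ≤ exp (N * T) * den q χ φ ψ s r := by
  have hW := h.W
  have hr' := Ioo_subset_Icc_self hr
  let f : ℝ → ℝ := fun t => log (χ t r) + q * log (φ t r) + (2 : ℕ) * log (ψ t r)
  have h1 : ∀ t ∈ Ioo 0 T, den q χ φ ψ t r = exp (f t) := fun t ht => by
    simp only [f, den]
    rw [exp_add, exp_add, exp_nat_mul, exp_nat_mul, exp_log (hW.χ_pos t ht r hr'),
      exp_log (hW.φ_pos t ht r hr), exp_log (hW.ψ_pos t ht r hr')]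
  have h2 : ∀ t ∈ Ioo 0 T,
      HasDerivWithinAt f (-scalW q (χ t) (φ t) (ψ t) r) (Ioo 0 T) t := fun t ht => by
    have a1 := (hW.χ_pos t ht r hr').ne'
    have a2 := (hW.φ_pos t ht r hr).ne'
    have a3 := (hW.ψ_pos t ht r hr').ne'
    refine (HasDerivAt.congr_deriv ((((hW.eqχ t ht r hr).log a1).add
      (((hW.eqφ t ht r hr).log a2).const_mul (q : ℝ))).add
      (((hW.eqψ t ht r hr).log a3).const_mul ((2 : ℕ) : ℝ))) ?_).hasDerivWithinAt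
    unfold scalW
    field_simp
    ring
  have h3 := (convex_Ioo 0 T).norm_image_sub_le_of_norm_hasDerivWithin_le (C := N) h2
    (fun t ht => by rw [norm_neg]; exact h.scal t ht r hr) hs ht
  have h4 : 0 ≤ N := (abs_nonneg _).trans (h.scal t ht r hr)
  have h5 : |t - s| ≤ T := by rw [abs_le]; constructor <;> linarith [hs.1, hs.2, ht.1, ht.2]
  rw [h1 t ht, h1 s hs, ← exp_add, exp_le_exp]
  rw [Real.norm_eq_abs, Real.norm_eq_abs] at h3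
  linarith [le_abs_self (f t - f s), mul_le_mul_of_nonneg_left h5 h4]

/-- the volume density is comparable with that of the round metric -/
theorem Est.den_bd (h : Est q T N χ φ ψ) : ∃ c > 0, ∃ C, ∀ t ∈ Ioo 0 T, ∀ r ∈ Ioo 0 π,
    c * sin r ^ q ≤ den q χ φ ψ t r ∧ den q χ φ ψ t r ≤ C * sin r ^ q := by
  have hW := h.W
  obtain ⟨a, b, hC⟩ := hW.coef
  have hs : T / 2 ∈ Ioo 0 T := ⟨half_pos h.T_pos, half_lt_self h.T_pos⟩
  set s := T / 2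
  have k : ∀ f : ℝ → ℝ → ℝ, ContDiffOn ℝ ∞ (fun z : ℝ × ℝ => f z.1 z.2) (Ioo 0 T ×ˢ univ) →
      ContinuousOn (f s) (Icc 0 π) := fun f hf =>
    hf.continuousOn.comp (f := fun r : ℝ => (s, r)) (by fun_prop) fun r _ => ⟨hs, trivial⟩
  have ka : ContinuousOn (fun r => a (s, r)) (Icc 0 π) :=
    (hC.ta.continuousOn.comp (f := fun r : ℝ => (s, cos r)) (by fun_prop)
      fun r _ => ⟨hs, cos_mem_Icc r⟩).congr fun r hr => by
        simp only [Function.comp_apply, arccos_cos hr.1 hr.2]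
  let F : ℝ → ℝ := fun r => χ s r * √(a (s, r)) ^ q * ψ s r ^ 2
  have hF : ContinuousOn F (Icc 0 π) :=
    ((k χ hW.smχ).mul (ka.sqrt.pow q)).mul ((k ψ hW.smψ).pow 2)
  have eF : ∀ r ∈ Ioo 0 π, den q χ φ ψ s r = F r * sin r ^ q := fun r hr => by
    have h1 : φ s r = √(a (s, r)) * sin r := by
      rw [← sqrt_sq (hW.φ_pos s hs r hr).le, hC.eφ s hs r,
        sqrt_mul (hC.apos s hs r (Ioo_subset_Icc_self hr)).le, sqrt_sq (sin_pos_of_mem_Ioo hr).le]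
    simp only [den, F, h1]
    ring
  obtain ⟨c, c0, hc⟩ := isCompact_Icc.exists_forall_le' hF fun r hr =>
    mul_pos (mul_pos (hW.χ_pos s hs r hr) (pow_pos (sqrt_pos.2 (hC.apos s hs r hr)) q))
      (pow_pos (hW.ψ_pos s hs r hr) 2)
  obtain ⟨C, hC'⟩ := isCompact_Icc.bddAbove_image hF
  refine ⟨c / exp (N * T), by positivity, exp (N * T) * C, fun t ht r hr => ⟨?_, ?_⟩⟩
  · have h1 := h.den_cmp ht hs hr
    rw [div_mul_eq_mul_div, div_le_iff₀' (exp_pos _)]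
    refine le_trans ?_ h1
    rw [eF r hr]
    exact mul_le_mul_of_nonneg_right (hc r (Ioo_subset_Icc_self hr))
      (pow_nonneg (sin_pos_of_mem_Ioo hr).le q)
  · refine (h.den_cmp hs ht hr).trans ?_
    rw [eF r hr, mul_assoc (exp _)]
    exact mul_le_mul_of_nonneg_left (mul_le_mul_of_nonneg_right
      (hC' (mem_image_of_mem F (Ioo_subset_Icc_self hr)))
      (pow_nonneg (sin_pos_of_mem_Ioo hr).le q)) (exp_pos _).le

/-- away from the poles the radius of the small sphere stays bounded below -/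
theorem Est.lag (h : Est q T N χ φ ψ) :
    ∃ c > 0, ∀ t ∈ Ioo 0 T, ∀ r ∈ Ioo 0 π, c * sin r ≤ ψ t r := by
  have hW := h.W
  obtain ⟨c, c0, C, hc⟩ := h.den_bd
  obtain ⟨B, B0, hB⟩ := h.up
  obtain ⟨δ, δ0, hδ⟩ := h.mono
  set κ := min 1 (c / 2 ^ q / (4 * B ^ 2)) with hκ
  have κ0 : 0 < κ := by positivity
  have key : ∀ t ∈ Ioo 0 T, ∀ r ∈ Ioc 0 (π / 2), min κ δ * sin r ≤ φ t r := by
    intro t ht r hr
    have hr' : r ∈ Ioo 0 π := ⟨hr.1, by linarith [hr.2, pi_pos]⟩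
    have s0 := sin_pos_of_mem_Ioo hr'
    have p0 := hW.φ_pos t ht r hr'
    rcases le_or_gt (φ t r) δ with h1 | h1
    · refine (mul_le_mul_of_nonneg_right (min_le_left _ _) s0.le).trans ?_
      have hd : Differentiable ℝ (φ t) := (contDiffOn_univ.1 (hW.smφ.comp
        (f := fun r : ℝ => (t, r)) (by fun_prop) fun r _ => ⟨ht, trivial⟩)).differentiable
          (by simp)
      obtain ⟨ξ, hξ, h2⟩ := exists_deriv_eq_slope (φ t) (half_lt_self hr.1)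
        hd.continuous.continuousOn hd.differentiableOn
      have hξ' : ξ ∈ Ioo 0 π := ⟨by linarith [hξ.1, hr.1], hξ.2.trans hr'.2⟩
      obtain ⟨h3, h4⟩ := hδ t ht r hr h1 ξ ⟨hξ'.1.le, hξ.2.le⟩
      have x0 := hW.χ_pos t ht ξ (Ioo_subset_Icc_self hξ')
      have y0 := hW.φ_pos t ht (r / 2) ⟨half_pos hr.1, by linarith [hr'.2, hr.1]⟩
      rw [ds, h2, le_div_iff₀ x0, le_div_iff₀ (by linarith [hr.1])] at h4
      have h5 : χ t ξ * sin r ≤ 4 * φ t r := by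
        nlinarith [mul_le_mul_of_nonneg_left (sin_le hr.1.le) x0.le]
      have h6 : sin r / 2 ≤ sin ξ := by
        have a1 : sin (r / 2) ≤ sin ξ := sin_le_sin_of_le_of_le_pi_div_two
          (by linarith [hr.1, pi_pos]) (by linarith [hξ.2, hr.2]) hξ.1.le
        have a2 := sin_two_mul (r / 2)
        rw [show 2 * (r / 2) = r by ring] at a2
        have a3 := sin_pos_of_mem_Ioo (x := r / 2) ⟨half_pos hr.1, by linarith [hr'.2, hr.1]⟩
        nlinarith [cos_le_one (r / 2)]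
      have h7 : c * (sin r / 2) ^ q ≤ χ t ξ * φ t r ^ q * B ^ 2 := by
        refine (mul_le_mul_of_nonneg_left (pow_le_pow_left₀ (by positivity) h6 q) c0.le).trans
          ((hc t ht ξ hξ').1.trans ?_)
        exact mul_le_mul (mul_le_mul_of_nonneg_left
          (pow_le_pow_left₀ (hW.φ_pos t ht ξ hξ').le h3 q) x0.le)
          (pow_le_pow_left₀ (hW.ψ_pos t ht ξ (Ioo_subset_Icc_self hξ')).le (hB t ht ξ hξ').2 2)
          (sq_nonneg _) (by positivity)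
      refine le_of_pow_le_pow_left₀ (Nat.succ_ne_zero q) p0.le ?_
      have h8 : κ ^ (q + 1) ≤ c / 2 ^ q / (4 * B ^ 2) :=
        (pow_le_of_le_one κ0.le (min_le_left _ _) (Nat.succ_ne_zero q)).trans (min_le_right _ _)
      rw [mul_pow]
      refine (mul_le_mul_of_nonneg_right h8 (by positivity)).trans ?_
      rw [div_mul_eq_mul_div, div_le_iff₀ (by positivity)]
      calc c / 2 ^ q * sin r ^ (q + 1) = c * (sin r / 2) ^ q * sin r := by rw [div_pow]; ring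
        _ ≤ χ t ξ * φ t r ^ q * B ^ 2 * sin r := mul_le_mul_of_nonneg_right h7 s0.le
        _ = χ t ξ * sin r * (φ t r ^ q * B ^ 2) := by ring
        _ ≤ 4 * φ t r * (φ t r ^ q * B ^ 2) := mul_le_mul_of_nonneg_right h5 (by positivity)
        _ = _ := by rw [Nat.succ_eq_add_one]; ring
    · exact (mul_le_of_le_one_right (by positivity) (sin_le_one r)).trans
        ((min_le_right _ _).trans h1.le)
  refine ⟨min κ δ / B, by positivity, fun t ht r hr => ?_⟩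
  rw [div_mul_eq_mul_div, div_le_iff₀' B0]
  refine le_trans ?_ (hB t ht r hr).1
  rcases le_total r (π / 2) with h1 | h1
  · exact key t ht r ⟨hr.1, h1⟩
  · have := key t ht (π - r) ⟨by linarith [hr.2], by linarith⟩
    rwa [sin_pi_sub, hW.φ_sym t ht] at this

end Scale

end Vale.Agent.N244
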