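import Vale.Agent.N244.Bridge
import Vale.Agent.N244.Warp
import Mathlib.Analysis.SpecialFunctions.JapaneseBracket
import Mathlib.Analysis.SpecialFunctions.Pow.Integral
import Mathlib.MeasureTheory.Measure.Haar.Unique

/-! P244: the estimates in the charts of `S^(q+1) × S^2`. -/

set_option maxSynthPendingDepth 3

open scoped Manifold ContDiff Topology RealInnerProductSpace
open Set Filter Module Metric Real MeasureTheory

namespace Vale.Agent.N244

open Vale.Agent.P244Z.Geo hiding Sph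
open Vale.Agent.P244Z

variable {q : ℕ} {T t C D : ℝ} {χ φ ψ : ℝ → ℝ → ℝ} {a b : ℝ × ℝ → ℝ}

theorem continuous_col (N v : Geo.Sph (q + 1)) (w : Geo.Sph 2) :
    Continuous (fun y => ⟪N.1, ((pchart v w).symm y).1.1⟫) ∧ Continuous (col N (pchart v w)) := by
  have h : Continuous (fun y => ⟪N.1, ((pchart v w).symm y).1.1⟫) :=
    continuous_const.inner (emb_pchart v w).smooth.continuous.fst
  exact ⟨h, continuous_arccos.comp h⟩

theorem sin_col (N : Geo.Sph (q + 1))
    (e : OpenPartialHomeomorph (Geo.Sph (q + 1) × Geo.Sph 2) (Euc (q + 1 + 2))) (y) :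
    sin (col N e y) ^ 2 = 1 - ⟪N.1, (e.symm y).1.1⟫ ^ 2 := by
  have hh := inner_mem_Icc N (e.symm y).1
  rw [sin_sq, col, cos_arccos hh.1 hh.2]

theorem sec_weight (hW : WarpR 2 q T χ φ ψ) (hC : Coef T χ φ ψ a b) (N v : Geo.Sph (q + 1))
    (w : Geo.Sph 2) (ht : t ∈ Ioo 0 T) (hD : 0 ≤ D)
    (hs : ∀ r ∈ Ioo 0 π, ψ t r ^ 2 * |kR (χ t) (φ t) r| ≤ C ∧
      ψ t r ^ 2 * |kR (χ t) (ψ t) r| ≤ C ∧ ψ t r ^ 2 * |kS (χ t) (φ t) r| ≤ C ∧
      ψ t r ^ 2 * |kS (χ t) (ψ t) r| ≤ C ∧ ψ t r ^ 2 * |kM (χ t) (φ t) (ψ t) r| ≤ C)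
    {wt : Euc (q + 1 + 2) → ℝ} (hwt : Continuous wt)
    (h1 : ∀ y, col N (pchart v w) y ∈ Ioo 0 π → wt y ≤ D * ψ t (col N (pchart v w) y) ^ 2)
    {G} (hG : G = Gc (wB a b ψ N t) emb (pchart v w)) (y u u' : Euc (q + 1 + 2)) :
    |secA G y u u'| * wt y ≤ D * C * (G y u u * G y u' u' - G y u u' ^ 2) := by
  have he := emb_pchart v w
  have hR : RiemOn G univ := hG ▸ hW.riem hC N he ht
  have h0 : Continuous G := continuousOn_univ.1 hR.smooth.continuousOn
  refine closure_minimal (s := {y | ⟪N.1, ((pchart v w).symm y).1.1⟫ ∈ Ioo (-1 : ℝ) 1})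
    (t := {y | |secA G y u u'| * wt y ≤ D * C * (G y u u * G y u' u' - G y u u' ^ 2)})
    (fun y hy => ?_) (isClosed_le ((continuous_secA hR u u').abs.mul hwt) (by fun_prop))
    (dense_nonpole N v w y)
  obtain ⟨hr, L, -, hL⟩ := chart_polar' N he y hy
  subst hG
  obtain ⟨l1, -, l3⟩ := hL _ _ _ _ _ _ (hW.slice hC ht) hR
  obtain ⟨x, rfl⟩ := L.surjective u
  obtain ⟨x', rfl⟩ := L.surjective u'
  have hA := area_nonneg hR y (L x) (L x')
  have p0 := pow_pos (hW.ψ_pos t ht _ (Ioo_subset_Icc_self hr)) 2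
  obtain ⟨c1, c2, c3, c4, c5⟩ := hs _ hr
  have k := abs_secP_le ((le_div_iff₀' p0).2 c1) ((le_div_iff₀' p0).2 c2) ((le_div_iff₀' p0).2 c3)
    ((le_div_iff₀' p0).2 c4) ((le_div_iff₀' p0).2 c5) x x'
  rw [← l1, ← l1, ← l1, ← l3, div_mul_eq_mul_div, le_div_iff₀ p0] at k
  have k1 := mul_le_mul_of_nonneg_left (h1 y hr)
    (abs_nonneg (secA (Gc (wB a b ψ N t) emb (pchart v w)) y (L x) (L x')))
  have k2 := mul_le_mul_of_nonneg_left k hD
  rw [mem_ofPred]
  unfold wB at *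
  linarith

theorem ric_weight (hW : WarpR 2 q T χ φ ψ) (hC : Coef T χ φ ψ a b) (N v : Geo.Sph (q + 1))
    (w : Geo.Sph 2) (ht : t ∈ Ioo 0 T) (hD : 0 ≤ D)
    (hs : ∀ r ∈ Ioo 0 π, ψ t r ^ (5 / 6 : ℝ) * |rho0 2 q (χ t) (φ t) (ψ t) r| ≤ C ∧
      ψ t r ^ (5 / 6 : ℝ) * |rho1 2 q (χ t) (φ t) (ψ t) r| ≤ C ∧
      ψ t r ^ (5 / 6 : ℝ) * |rho2 2 q (χ t) (φ t) (ψ t) r| ≤ C)
    {wt : Euc (q + 1 + 2) → ℝ} (hwt : Continuous wt)
    (h1 : ∀ y, col N (pchart v w) y ∈ Ioo 0 π → wt y ≤ D * ψ t (col N (pchart v w) y) ^ (5 / 6 : ℝ))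
    {G} (hG : G = Gc (wB a b ψ N t) emb (pchart v w)) (y u : Euc (q + 1 + 2)) :
    |ricA G y u u| * wt y ≤ D * C * G y u u := by
  have he := emb_pchart v w
  have hR : RiemOn G univ := hG ▸ hW.riem hC N he ht
  have h0 : Continuous G := continuousOn_univ.1 hR.smooth.continuousOn
  refine closure_minimal (s := {y | ⟪N.1, ((pchart v w).symm y).1.1⟫ ∈ Ioo (-1 : ℝ) 1})
    (t := {y | |ricA G y u u| * wt y ≤ D * C * G y u u})
    (fun y hy => ?_) (isClosed_le ((continuous_iff_continuousAt.2 fun y =>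
      hR.continuousAt_ricA trivial u u).abs.mul hwt) (by fun_prop)) (dense_nonpole N v w y)
  obtain ⟨hr, L, -, hL⟩ := chart_polar' N he y hy
  subst hG
  obtain ⟨l1, l2, -⟩ := hL _ _ _ _ _ _ (hW.slice hC ht) hR
  obtain ⟨x, rfl⟩ := L.surjective u
  set r := col N (pchart v w) y
  have p0 := rpow_pos_of_pos (hW.ψ_pos t ht _ (Ioo_subset_Icc_self hr)) (5 / 6)
  obtain ⟨c1, c2, c3⟩ := hs _ hr
  have b1 : 0 ≤ χ t r ^ 2 * (x.1 * x.1) := mul_nonneg (sq_nonneg _) (mul_self_nonneg _)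
  have b2 : 0 ≤ φ t r ^ 2 * ⟪x.2.1, x.2.1⟫ := mul_nonneg (sq_nonneg _) real_inner_self_nonneg
  have b3 : 0 ≤ ψ t r ^ 2 * ⟪x.2.2, x.2.2⟫ := mul_nonneg (sq_nonneg _) real_inner_self_nonneg
  have k : |ricA (Gc (wB a b ψ N t) emb (pchart v w)) y (L x) (L x)| ≤
      |rho0 2 q (χ t) (φ t) (ψ t) r| * (χ t r ^ 2 * (x.1 * x.1)) +
      |rho1 2 q (χ t) (φ t) (ψ t) r| * (φ t r ^ 2 * ⟪x.2.1, x.2.1⟫) +
      |rho2 2 q (χ t) (φ t) (ψ t) r| * (ψ t r ^ 2 * ⟪x.2.2, x.2.2⟫) := by
    refine le_of_eq_of_le (congrArg abs (l2 x x)) ((abs_add_three _ _ _).trans (le_of_eq ?_))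
    rw [abs_mul, abs_mul (rho1 _ _ _ _ _ _), abs_mul (rho2 _ _ _ _ _ _), abs_of_nonneg b1,
      abs_of_nonneg b2, abs_of_nonneg b3]
  have k0 : Gc (wB a b ψ N t) emb (pchart v w) y (L x) (L x) = _ := l1 x x
  have k1 := mul_le_mul_of_nonneg_left (h1 y hr)
    (abs_nonneg (ricA (Gc (wB a b ψ N t) emb (pchart v w)) y (L x) (L x)))
  have k2 := mul_le_mul_of_nonneg_left k (mul_nonneg hD p0.le)
  have d1 := mul_le_mul_of_nonneg_left (mul_le_mul_of_nonneg_right c1 b1) hD
  have d2 := mul_le_mul_of_nonneg_left (mul_le_mul_of_nonneg_right c2 b2) hD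
  have d3 := mul_le_mul_of_nonneg_left (mul_le_mul_of_nonneg_right c3 b3) hD
  rw [mem_ofPred, k0, metP]
  linarith

/-- the directions of the small sphere in a product chart -/
noncomputable def dir (m : ℕ) (i : Fin 2) : Euc (m + 2) := (spl m 2).symm (0, ev i)

theorem dir_fst {m : ℕ} (v : Geo.Sph m) (w : Geo.Sph 2) (y : Euc (m + 2)) (i : Fin 2) :
    (fderiv ℝ (emb ∘ (pchart v w).symm) y (dir m i)).1 = 0 := by
  have he := emb_pchart v w
  have h1 : HasDerivAt (fun t : ℝ => ((emb ∘ (pchart v w).symm) (y + t • dir m i)).1)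
      (fderiv ℝ (emb ∘ (pchart v w).symm) y (dir m i)).1 0 :=
    (ContinuousLinearMap.fst ℝ (Euc (m + 1)) (Euc (2 + 1))).hasFDerivAt.comp_hasDerivAt 0
      (hasDerivAt_line (he.smooth.differentiable (by simp) y) _)
  have h2 : (fun t : ℝ => ((emb ∘ (pchart v w).symm) (y + t • dir m i)).1) =
      fun _ => ((stereographic' m v).symm (spl m 2 y).1).1 := by
    funext t
    simp [emb, pchart_symm, dir]
  rw [h2] at h1
  exact h1.unique (hasDerivAt_const _ _)

theorem sec_pole (hW : WarpR 2 q T χ φ ψ) (hC : Coef T χ φ ψ a b) (N v : Geo.Sph (q + 1))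
    (w : Geo.Sph 2) (ht : t ∈ Ioo 0 T) {G} (hG : G = Gc (wB a b ψ N t) emb (pchart v w))
    (y : Euc (q + 1 + 2)) (hy : 1 - ⟪N.1, ((pchart v w).symm y).1.1⟫ ^ 2 = 0) :
    ∃ u u', secA G y u u' / (G y u u * G y u' u' - G y u u' ^ 2) = 1 / ψ t 0 ^ 2 := by
  have he := emb_pchart v w
  have hR : RiemOn G univ := hG ▸ hW.riem hC N he ht
  have h0 : Continuous G := continuousOn_univ.1 hR.smooth.continuousOn
  have sm : ∀ f : ℝ → ℝ → ℝ, ContDiffOn ℝ ∞ (fun z : ℝ × ℝ => f z.1 z.2) (Ioo 0 T ×ˢ univ) →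
      ContDiff ℝ ∞ (f t) := fun f hf => contDiffOn_univ.1
    (hf.comp (f := fun r : ℝ => (t, r)) (by fun_prop) fun r _ => ⟨ht, trivial⟩)
  set u := dir (q + 1) 0
  set u' := dir (q + 1) 1
  have hk : ContinuousOn (kS (χ t) (ψ t)) (Icc 0 π) :=
    (continuousOn_const.sub ((((sm ψ hW.smψ).continuous_deriv (by simp)).continuousOn.div
      (sm χ hW.smχ).continuous.continuousOn fun r hr => (hW.χ_pos t ht r hr).ne').pow 2)).div
      ((sm ψ hW.smψ).continuous.continuousOn.pow 2) fun r hr => (pow_pos (hW.ψ_pos t ht r hr) 2).ne'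
  have hk' : Continuous fun y => kS (χ t) (ψ t) (col N (pchart v w) y) :=
    hk.comp_continuous (continuous_col N v w).2 fun y => ⟨arccos_nonneg _, arccos_le_pi _⟩
  have h1 : (fun y => secA G y u u') = fun y =>
      kS (χ t) (ψ t) (col N (pchart v w) y) * (G y u u * G y u' u' - G y u u' ^ 2) := by
    refine Continuous.ext_on (dense_nonpole N v w) (continuous_secA hR u u') (by fun_prop)
      fun y hy => ?_
    obtain ⟨hr, L, l0, hL⟩ := chart_polar' N he y hy
    subst hG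
    obtain ⟨l1, -, l3⟩ := hL _ _ _ _ _ _ (hW.slice hC ht) hR
    have key : ∀ i, ∃ x : Euc 2, L (0, 0, x) = dir (q + 1) i := fun i => by
      obtain ⟨x, hx⟩ := L.surjective (dir (q + 1) i)
      have k := l0 1 0 x x
      rw [hx, Gc_apply, ambB_apply, dir_fst] at k
      have s0 := pow_pos (sin_pos_of_mem_Ioo hr) 2
      have s1 : 0 ≤ ⟪x.2.1, x.2.1⟫ := real_inner_self_nonneg
      simp only [inner_zero_left, mul_zero, zero_mul, add_zero, one_mul] at k
      have k1 : x.1 * x.1 = 0 := by nlinarith [mul_self_nonneg x.1, mul_nonneg s0.le s1]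
      have k2 : ⟪x.2.1, x.2.1⟫ = 0 := by
        rw [k1, zero_add] at k
        exact (mul_eq_zero.1 k.symm).resolve_left s0.ne'
      refine ⟨x.2.2, Eq.trans (congrArg L ?_) hx⟩
      exact Prod.ext (mul_self_eq_zero.1 k1).symm (Prod.ext (inner_self_eq_zero.1 k2).symm rfl)
    obtain ⟨x, hx⟩ := key 0
    obtain ⟨x', hx'⟩ := key 1
    simp only [u, u', ← hx, ← hx']
    unfold wB
    rw [l1, l1, l1, l3]
    simp only [secP, metP, aR, aS, aM, inner_zero_left]
    ring
  have u0 : u ≠ 0 := by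
    simp only [u, dir, Ne, ContinuousLinearEquiv.map_eq_zero_iff, Prod.mk_eq_zero]
    simp
  have g0 := hR.pos y trivial u u0
  have hA : 0 < G y u u * G y u' u' - G y u u' ^ 2 := by
    have η0 : G y u u • u' - G y u u' • u ≠ 0 := fun h => by
      have := congrArg (fun z => (spl (q + 1) 2 z).2 1) h
      simp [u, u', dir] at this
      exact g0.ne' this
    have k := hR.pos y trivial _ η0
    simp only [map_sub, map_smul, sub_apply, smul_apply, smul_eq_mul, hR.symm y trivial u' u] at k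
    refine (mul_pos_iff_of_pos_left g0).1 ?_
    linarith
  refine ⟨u, u', ?_⟩
  rw [congrFun h1 y, mul_div_cancel_right₀ _ hA.ne']
  have d0 : deriv (ψ t) 0 = 0 := by
    have h2 := deriv_comp_neg (ψ t) 0
    rw [show (fun x => ψ t (-x)) = ψ t from funext (hW.ψ_even t ht), neg_zero] at h2
    linarith
  have d1 : deriv (ψ t) π = 0 := by
    have h2 := deriv_comp_const_sub (ψ t) π 0
    rw [show (fun x => ψ t (π - x)) = ψ t from funext (hW.ψ_sym t ht), sub_zero] at h2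
    linarith
  have d2 : ψ t π = ψ t 0 := by simpa using hW.ψ_sym t ht 0
  rw [← sin_col, pow_eq_zero_iff two_ne_zero] at hy
  have hc : col N (pchart v w) y = 0 ∨ col N (pchart v w) y = π := by
    by_contra hne
    push Not at hne
    exact (sin_pos_of_mem_Ioo ⟨lt_of_le_of_ne (arccos_nonneg _) hne.1.symm,
      lt_of_le_of_ne (arccos_le_pi _) hne.2⟩).ne' hy
  rcases hc with hc | hc <;> simp [hc, kS, ds, d0, d1, d2]

section Vol

theorem det_comp {n : ℕ} {G G' : Euc n → Bil (Euc n)} {y : Euc n} (A : Euc n →ₗ[ℝ] Euc n)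
    (h : ∀ u v, G y u v = G' y (A u) (A v)) :
    (mat G y).det = LinearMap.det A ^ 2 * (mat G' y).det := by
  let β := (EuclideanSpace.basisFun (Fin n) ℝ).toBasis
  have h1 : mat G y = (LinearMap.toMatrix β β A).transpose * mat G' y * LinearMap.toMatrix β β A := by
    ext i j
    rw [mat, Matrix.of_apply, h, bil_eq_sum]
    simp only [Matrix.mul_apply, Matrix.transpose_apply, LinearMap.toMatrix_apply, Finset.sum_mul,
      mat, Matrix.of_apply, β]
    rw [Finset.sum_comm]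
    refine Finset.sum_congr rfl fun k _ => Finset.sum_congr rfl fun l _ => ?_
    simp
    ring
  rw [h1, Matrix.det_mul, Matrix.det_mul, Matrix.det_transpose, LinearMap.det_toMatrix]
  ring

theorem stereo_sig {k : ℕ} (v : Geo.Sph k) : ∃ j : Euc k →ₗᵢ[ℝ] Euc (k + 1),
    (∀ θ, ⟪-v.1, j θ⟫ = 0) ∧ ∀ θ, ((stereographic' k v).symm θ).1 = sig j (-v.1) θ := by
  refine ⟨(ℝ ∙ v.1)ᗮ.subtypeₗᵢ.comp (OrthonormalBasis.fromOrthogonalSpanSingleton k
    (ne_zero_of_mem_unit_sphere v)).repr.symm.toLinearIsometry, fun θ => ?_, fun θ => ?_⟩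
  · rw [inner_neg_left, neg_eq_zero]
    exact Submodule.mem_orthogonal_singleton_iff_inner_right.1 (Subtype.property _)
  · rw [stereographic'_symm_apply]
    simp only [sig, lam, ← Submodule.coe_norm, LinearIsometryEquiv.norm_map,
      LinearIsometry.coe_comp, Function.comp_apply, Submodule.coe_subtypeₗᵢ, Submodule.coe_subtype,
      LinearIsometryEquiv.coe_toLinearIsometry]
    have : (4 + ‖θ‖ ^ 2) ≠ 0 := by positivity
    have : (‖θ‖ ^ 2 + 4) ≠ 0 := by positivity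
    match_scalars <;> field_simp <;> ring

/-- the round metric in the product chart -/
theorem det_round {m : ℕ} (N v : Geo.Sph m) (w : Geo.Sph 2) (y : Euc (m + 2)) :
    (mat (Gc (ambB (fun _ => 1) (fun _ => 0) (fun _ => 1) N.1) emb (pchart v w)) y).det =
      (lam (spl m 2 y).1 ^ m * lam (spl m 2 y).2 ^ 2) ^ 2 := by
  obtain ⟨j₁, a1, a2⟩ := stereo_sig v
  obtain ⟨j₂, b1, b2⟩ := stereo_sig w
  have he := emb_pchart v w
  have hD : ∀ u, fderiv ℝ (emb ∘ (pchart v w).symm) y u =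
      (dsig j₁ (-v.1) (spl m 2 y).1 (spl m 2 u).1, dsig j₂ (-w.1) (spl m 2 y).2 (spl m 2 u).2) := by
    intro u
    refine (hasDerivAt_line (he.smooth.differentiable (by simp) y) u).unique ?_
    refine HasDerivAt.congr_of_eventuallyEq ((hasDerivAt_sig _ _).prodMk (hasDerivAt_sig _ _))
      (Eventually.of_forall fun t => ?_)
    simp only [emb, pchart_symm, Function.comp_apply, a2, b2, map_add, map_smul, Prod.fst_add,
      Prod.snd_add, Prod.smul_fst, Prod.smul_snd]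
  have n1 : ⟪-v.1, -v.1⟫ = 1 := by rw [inner_neg_neg, inner_sph]
  have n2 : ⟪-w.1, -w.1⟫ = 1 := by rw [inner_neg_neg, inner_sph]
  have hs : ∀ u u' : Euc (m + 2),
      ⟪u, u'⟫ = ⟪(spl m 2 u).1, (spl m 2 u').1⟫ + ⟪(spl m 2 u).2, (spl m 2 u').2⟫ := fun u u' => by
    simp only [PiLp.inner_apply]
    rw [Fin.sum_univ_add]
    rfl
  rw [det_comp (G' := fun _ => ipB (Euc (m + 2))) ((spl m 2).symm.toLinearEquiv.conj
    (LinearMap.prodMap (lam (spl m 2 y).1 • LinearMap.id) (lam (spl m 2 y).2 • LinearMap.id)))]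
  · have h1 : mat (fun _ => ipB (Euc (m + 2))) y = 1 := by
      ext i j
      simp [mat, ipB_apply, Matrix.one_apply, EuclideanSpace.inner_single_left]
    rw [h1, Matrix.det_one, mul_one, LinearEquiv.conj_apply, LinearMap.comp_assoc,
      LinearMap.det_conj, LinearMap.det_prodMap, LinearMap.det_smul, LinearMap.det_smul]
    simp
  · intro u u'
    rw [Gc_apply, ambB_apply, hD, hD, inner_dsig n1 a1, inner_dsig n2 b1, ipB_apply, hs]
    simp [LinearEquiv.conj_apply_apply, real_inner_smul_left, real_inner_smul_right]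
    ring

theorem sqrt_det_le (hW : WarpR 2 q T χ φ ψ) (hC : Coef T χ φ ψ a b) (N v : Geo.Sph (q + 1))
    (w : Geo.Sph 2) (ht : t ∈ Ioo 0 T)
    (hd : ∀ r ∈ Ioo 0 π, den q χ φ ψ t r ≤ C * sin r ^ q) (y : Euc (q + 1 + 2))
    (hy : ⟪N.1, ((pchart v w).symm y).1.1⟫ ∈ Ioo (-1 : ℝ) 1) :
    √(mat (Gc (wB a b ψ N t) emb (pchart v w)) y).det ≤
      C * (lam (spl (q + 1) 2 y).1 ^ (q + 1) * lam (spl (q + 1) 2 y).2 ^ 2) := by
  have he := emb_pchart v w
  obtain ⟨hr, L, l0, hL⟩ := chart_polar' N he y hy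
  obtain ⟨l1, -, -⟩ := hL _ _ _ _ _ _ (hW.slice hC ht) (hW.riem hC N he ht)
  set r := col N (pchart v w) y
  have s0 := sin_pos_of_mem_Ioo hr
  have h1 := hd r hr
  have p1 := hW.χ_pos t ht r (Ioo_subset_Icc_self hr)
  have p2 := hW.φ_pos t ht r hr
  have p3 := lam_pos (spl (q + 1) 2 y).1
  have p4 := lam_pos (spl (q + 1) 2 y).2
  rw [det_comp (G' := Gc (ambB (fun _ => 1) (fun _ => 0) (fun _ => 1) N.1) emb (pchart v w))
    (L.conj (LinearMap.prodMap (χ t r • LinearMap.id) (LinearMap.prodMap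
      ((φ t r / sin r) • LinearMap.id) (ψ t r • LinearMap.id)))), det_round, ← mul_pow,
    LinearEquiv.conj_apply, LinearMap.comp_assoc, LinearMap.det_conj, LinearMap.det_prodMap,
    LinearMap.det_prodMap, LinearMap.det_smul, LinearMap.det_smul, LinearMap.det_smul]
  · simp only [finrank_self, pow_one, LinearMap.det_id, mul_one, finrank_euclideanSpace_fin]
    rw [sqrt_sq (by positivity)]
    refine mul_le_mul_of_nonneg_right ?_ (by positivity)
    rw [div_pow, ← mul_assoc, mul_div_assoc', div_mul_eq_mul_div, div_le_iff₀ (by positivity)]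
    exact h1
  · intro u u'
    obtain ⟨x, rfl⟩ := L.surjective u
    obtain ⟨x', rfl⟩ := L.surjective u'
    rw [LinearEquiv.conj_apply_apply, LinearEquiv.conj_apply_apply, L.symm_apply_apply,
      L.symm_apply_apply, l0]
    refine (l1 x x').trans ?_
    simp only [metP, LinearMap.prodMap_apply, LinearMap.smul_apply, LinearMap.id_apply,
      real_inner_smul_left, real_inner_smul_right, smul_eq_mul]
    field_simp

theorem lat_chart {m : ℕ} (N v : Geo.Sph m) (hv : v = N ∨ v = -N) (w : Geo.Sph 2)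
    (y : Euc (m + 2)) : 1 - ⟪N.1, ((pchart v w).symm y).1.1⟫ ^ 2 =
      (lam (spl m 2 y).1 * ‖(spl m 2 y).1‖) ^ 2 := by
  obtain ⟨j, a1, a2⟩ := stereo_sig v
  have h1 : ⟪-v.1, ((pchart v w).symm y).1.1⟫ = 2 * lam (spl m 2 y).1 - 1 := by
    rw [pchart_symm, a2, sig, inner_add_right, real_inner_smul_right, real_inner_smul_right, a1,
      inner_neg_neg, inner_sph]
    ring
  have h2 : ⟪N.1, ((pchart v w).symm y).1.1⟫ ^ 2 = ⟪-v.1, ((pchart v w).symm y).1.1⟫ ^ 2 := by
    rcases hv with h | h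
    · rw [inner_neg_left, neg_sq, ← h]
    · have : -v.1 = N.1 := by rw [h, coe_neg_sphere, neg_neg]
      rw [this]
  rw [h2, h1, lam]
  field_simp
  ring

theorem lam_le {V : Type} [NormedAddCommGroup V] (θ : V) :
    lam θ ≤ 1 ∧ lam θ ≤ 4 * (1 + ‖θ‖ ^ 2)⁻¹ := by
  unfold lam
  refine ⟨(div_le_one (by positivity)).2 (by nlinarith [sq_nonneg ‖θ‖]), ?_⟩
  rw [← div_eq_mul_inv]
  exact div_le_div_of_nonneg_left (by norm_num) (by positivity) (by linarith)

theorem integrable_lam {k : ℕ} {s : ℝ} (hs : (k : ℝ) < 2 * s) :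
    Integrable fun θ : Euc k => lam θ ^ s := by
  have s0 : 0 ≤ s := by linarith [(Nat.cast_nonneg k : (0 : ℝ) ≤ k)]
  refine ((integrable_rpow_neg_one_add_norm_sq (E := Euc k) (μ := volume) (r := 2 * s)
    (by simpa using hs)).const_mul (4 ^ s)).mono'
    (contDiff_lam.continuous.rpow_const fun _ => Or.inr s0).aestronglyMeasurable
    (Eventually.of_forall fun θ => ?_)
  rw [Real.norm_of_nonneg (rpow_nonneg (lam_pos θ).le _), show -(2 * s) / 2 = -s by ring,
    rpow_neg (by positivity), ← inv_rpow (by positivity), ← mul_rpow (by norm_num) (by positivity)]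
  exact rpow_le_rpow (lam_pos θ).le (lam_le θ).2 s0

theorem integrable_sing {m : ℕ} (hm : 1 ≤ m) {α : ℝ} (h0 : 0 ≤ α) (hα : α < m) :
    Integrable fun θ : Euc m => (lam θ * ‖θ‖) ^ (-α) * lam θ ^ m := by
  have hc : Continuous (lam : Euc m → ℝ) := contDiff_lam.continuous
  have hm' : AEStronglyMeasurable (fun θ : Euc m => (lam θ * ‖θ‖) ^ (-α) * lam θ ^ m) volume :=
    (((hc.mul continuous_norm).measurable.pow_const _).mul
      (hc.pow m).measurable).aestronglyMeasurable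
  have e : ∀ θ : Euc m, ‖(lam θ * ‖θ‖) ^ (-α) * lam θ ^ m‖ = ‖θ‖ ^ (-α) * lam θ ^ (m - α) := by
    intro θ
    have := lam_pos θ
    rw [Real.norm_of_nonneg (by positivity), mul_rpow this.le (norm_nonneg _), ← rpow_natCast,
      sub_eq_neg_add, rpow_add this]
    ring
  rw [← integrableOn_univ, ← union_compl_self (ball (0 : Euc m) 1)]
  refine IntegrableOn.union (integrableOn_ball_of_norm_le_rpow (by simpa using hm) (C := 1)
    (α := α) (by simpa using hα) (Eventually.of_forall fun θ => ?_) hm') ?_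
  · rw [e, one_mul]
    exact mul_le_of_le_one_right (by positivity)
      (rpow_le_one (lam_pos θ).le (lam_le θ).1 (by linarith))
  · refine Integrable.mono' ((integrable_lam (k := m) (s := m - α / 2) (by linarith)).const_mul
      (2 ^ (α / 2))).integrableOn hm'.restrict ?_
    refine (ae_restrict_iff' measurableSet_ball.compl).2 (Eventually.of_forall fun θ hθ => ?_)
    have h1 : 1 ≤ ‖θ‖ := by simpa using hθ
    have hl := lam_pos θ
    have h2 : (‖θ‖ ^ 2)⁻¹ ≤ 2 * lam θ := by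
      rw [lam, inv_eq_one_div, ← mul_div_assoc, div_le_div_iff₀ (by positivity) (by positivity)]
      nlinarith
    have h3 : ‖θ‖ ^ (-α) ≤ 2 ^ (α / 2) * lam θ ^ (α / 2) := by
      rw [← mul_rpow (by norm_num) hl.le, show -α = ((2 : ℕ) : ℝ) * -(α / 2) by push_cast; ring,
        rpow_mul (norm_nonneg _), rpow_natCast, rpow_neg (by positivity),
        ← inv_rpow (by positivity)]
      exact rpow_le_rpow (by positivity) h2 (by linarith)
    rw [e, show (m : ℝ) - α / 2 = α / 2 + (m - α) by ring, rpow_add hl, ← mul_assoc]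
    exact mul_le_mul_of_nonneg_right h3 (by positivity)

/-- the majorant of the integrand -/
noncomputable def maj (m : ℕ) (α : ℝ) (y : Euc (m + 2)) : ℝ :=
  (lam (spl m 2 y).1 * ‖(spl m 2 y).1‖) ^ (-α) * lam (spl m 2 y).1 ^ m * lam (spl m 2 y).2 ^ 2

theorem integrable_maj {m : ℕ} (hm : 1 ≤ m) {α : ℝ} (h0 : 0 ≤ α) (hα : α < m) :
    Integrable (maj m α) := by
  have h2 : Integrable fun θ : Euc 2 => lam θ ^ 2 := by
    simpa using integrable_lam (k := 2) (s := 2) (by norm_num)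
  have h1 := (integrable_sing hm h0 hα).mul_prod h2
  have h3 := Measure.isAddLeftInvariant_eq_smul (Measure.map (spl m 2) volume)
    ((volume : Measure (Euc m)).prod (volume : Measure (Euc 2)))
  have h4 := h1.smul_measure_nnreal (c := Measure.addHaarScalarFactor
    (Measure.map (spl m 2) volume) ((volume : Measure (Euc m)).prod (volume : Measure (Euc 2))))
  rw [← h3] at h4
  exact (integrable_map_equiv (spl m 2).toHomeomorph.toMeasurableEquiv _).1 h4

theorem ae_fst_ne {m : ℕ} (hm : 1 ≤ m) : ∀ᵐ y : Euc (m + 2), (spl m 2 y).1 ≠ 0 := by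
  have h := Measure.addHaar_submodule (volume : Measure (Euc (m + 2)))
    (LinearMap.ker ((LinearMap.fst ℝ _ _).comp (spl m 2).toLinearEquiv.toLinearMap)) fun h => by
      have : (spl m 2).symm (ev ⟨0, hm⟩, 0) ∈ LinearMap.ker
          ((LinearMap.fst ℝ _ _).comp (spl m 2).toLinearEquiv.toLinearMap) := h ▸ trivial
      simp at this
  rw [ae_iff]
  simp only [ne_eq, not_not]
  exact h

end Vol

end Vale.Agent.N244
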