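import Vale.Agent.P244Z.Final

/-! P244: the estimates along the singular solution. -/

open Set Real Filter Topology
open scoped ContDiff

namespace Vale.Agent.N244

open Vale.Agent.P244Z Vale.Agent.P244Z.Q

/-- a solution which satisfies the bootstrap bounds up to the singular time -/
structure Sing (K : Consts) (S : Q.Data) (J : Set ℝ) : Prop where
  ok : K.OK
  q_eq : S.q = K.q
  sol : Q.Sol S J
  pos : ∀ t ∈ J, 0 < S.sg t
  one : S.sg 0 ≤ 1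
  good : ∀ t ∈ J, Good K S t
  small : ∀ m > 0, ∃ t ∈ J, S.sg t < m

theorem exists_sing {q : ℕ} (hq : 10000 ≤ q) : ∃ K S J, K.q = q ∧ Sing K S J := by
  have hqR : (10000 : ℝ) ≤ q := by exact_mod_cast hq
  obtain ⟨th, hth0, hth1, hth2⟩ := exists_th hqR
  obtain ⟨ε1, hε1, hD⟩ := dataSt q th
  obtain ⟨ε0, hε0, hI⟩ := improveSt q th
  let K : Consts := ⟨q, th, 1 / (q : ℝ) ^ 3, min 1 (min ε0 ε1), 8, 20 * (q : ℝ) ^ 2,
    1 / (2 * √(2 * (20 * (q : ℝ) ^ 2) + 4 * 8))⟩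
  have hK : K.OK := by
    refine ⟨hq, hth0, hth1, hth2, by simp only [K]; positivity, le_rfl,
      lt_min one_pos (lt_min hε0 hε1), min_le_left _ _, by simp only [K]; norm_num,
      by simp only [K]; nlinarith, by simp only [K]; positivity, le_of_eq ?_⟩
    simp only [K, Consts.N1]
    rw [div_pow, mul_pow, sq_sqrt (by positivity)]
    field_simp
    ring
  obtain ⟨s0, ⟨⟨l0, φ0, u0, w, hsh, hD⟩, hI⟩, hs0⟩ :=
    (((hD K hK rfl rfl ((min_le_right _ _).trans (min_le_right _ _)) le_rfl le_rfl).and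
      (hI K rfl rfl ((min_le_right _ _).trans (min_le_left _ _)))).and
      (Ioc_mem_nhdsGT (zero_lt_one' ℝ))).exists
  obtain ⟨S, J, h1, h2, h3, h4⟩ := exist q (le_trans (by norm_num) hq) s0 l0 φ0 u0 w hsh
  have hfam : Fam K.q S J := ⟨fun a => (h1 a).1, fun a => (h1 a).2.1, h2, h3⟩
  have hsg : ∀ a, (S a).sg 0 = s0 := fun a => (h1 a).2.2.sg
  have hin := fun a ha => hD a ha (S a) (J a) (h1 a).1 (h1 a).2.1 (h1 a).2.2
  obtain ⟨a, ha, hG⟩ := hfam.shoot hK (fun a => by rw [hsg]; exact hs0.1) (fun a ha => (hin a ha).1)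
    fun a ha T hT hbox => good_of_box hK (h1 a).2.1 (h1 a).1 (hin a ha).1
      ((hin a ha).1.bds hK (h1 a).2.1 (h1 a).1 (hin a ha).2 (by rw [hsg]; exact hs0.1)
        (by rw [hsg]; exact hs0.2))
      (fun t1 hc => hI (S a) (J a) t1 a (hsg a) hc) hT.1 hT.2 hbox
  have hS := (h1 a).1
  have hqa : (S a).q = K.q := (h1 a).2.1
  have hinf : ∀ m > 0, ∃ t, (a, t) ∈ famU S J ∧ (S a).sg t < m := by
    intro m hm
    by_contra hcon
    push Not at hcon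
    have hpos : ∀ t ∈ J a, 0 < (S a).sg t := by
      intro t ht
      by_contra hle
      have h5 : m ≤ (S a).sg 0 := hcon 0 ⟨hS.time.zero_mem, by rw [hsg]; exact hs0.1⟩
      obtain ⟨s, hs, h6⟩ := intermediate_value_Icc' (hS.time.nonneg t ht)
        (hS.sm_sg.continuousOn.mono (hS.time.down t ht))
        (show m / 2 ∈ Icc _ _ from ⟨by linarith [not_lt.1 hle], by linarith⟩)
      have := hcon s ⟨hS.time.down t ht hs, by rw [h6]; linarith⟩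
      linarith
    obtain ⟨h5, h6⟩ := continuation_bound hK hqa hS hm (fun t ht => hcon t ⟨ht, hpos t ht⟩)
      fun T hT => hG T ⟨hT, hpos T hT⟩
    exact h4 a h5 h6
  have hJ' : TimeSet {t | (a, t) ∈ famU S J} := by
    refine ⟨⟨hS.time.zero_mem, by rw [hsg]; exact hs0.1⟩, fun t ht => hS.time.nonneg t ht.1,
      fun t ht s hs => hfam.down ht hs, fun t ht => ?_⟩
    obtain ⟨s, hs1, hs2⟩ := (((hfam.eventually_mem ht).filter_mono
      (nhdsWithin_mono t Ioi_subset_Ici_self)).and self_mem_nhdsWithin).exists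
    exact ⟨s, hs1, hs2⟩
  exact ⟨K, S a, _, rfl, hK, hqa, hS.restrict hJ' fun t ht => ht.1, fun t ht => ht.2,
    by rw [hsg]; exact hs0.2, hG, hinf⟩

variable {K : Consts} {S : Q.Data} {J : Set ℝ}

theorem Sing.two (h : Sing K S J) : 2 ≤ S.q := by
  rw [h.q_eq]; exact le_trans (by norm_num) h.ok.q_ge

theorem Sing.at (h : Sing K S J) {θ t : ℝ} (hθ : θ ∈ Ioo 0 π) (ht : t ∈ J) :
    Bds K S 1 (θ, t) ∧ Geo0 K S (θ, t) ∧ (S.φ (θ, t) ≤ K.δ → Trap K S (θ, t)) :=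
  have := (h.good t ht).1 (θ, t) ⟨hθ, h.sol.time.nonneg t ht, le_rfl⟩
  ⟨this.1, this.2.1, this.2.2.1⟩

theorem Sing.sg_le (h : Sing K S J) {t : ℝ} (ht : t ∈ J) : S.sg t ≤ 1 :=
  (h.sol.sg_strictAnti.antitoneOn h.sol.time.zero_mem ht (h.sol.time.nonneg t ht)).trans h.one

theorem mul_abs_le {r x B : ℝ} (h1 : r ≤ 1) (h : |x| ≤ B) : r * |x| ≤ B :=
  (mul_le_of_le_one_left (abs_nonneg _) h1).trans h

theorem tri3 {x y z a b : ℝ} (ha : 0 ≤ a) (hb : 0 ≤ b) :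
    |-x - a * y + b * z| ≤ |x| + a * |y| + b * |z| := by
  refine (abs_add_le _ _).trans (add_le_add ((abs_sub _ _).trans ?_) ?_)
  · rw [abs_neg, abs_mul, abs_of_nonneg ha]
  · rw [abs_mul, abs_of_nonneg hb]

/-- all sectional curvatures are bounded by `C / ρ²` -/
theorem Sing.sec (h : Sing K S J) : ∃ C, ∀ θ ∈ Ioo 0 π, ∀ t ∈ J,
    S.ρ (θ, t) ^ 2 * |S.hh (θ, t)| ≤ C ∧
    S.ρ (θ, t) ^ 2 * |S.Ds S.β (θ, t) + S.β (θ, t) ^ 2| ≤ C ∧ S.ρ (θ, t) ^ 2 * |S.kk (θ, t)| ≤ C ∧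
    S.ρ (θ, t) ^ 2 * |exp (-2 * S.u (θ, t)) - S.β (θ, t) ^ 2| ≤ C ∧
    S.ρ (θ, t) ^ 2 * |S.A (θ, t) * S.vv (θ, t)| ≤ C := by
  have hq : (10000 : ℝ) ≤ S.q := by rw [h.q_eq]; exact h.ok.q_geR
  have hδ := h.ok.δ_pos
  have hN := h.ok.N1_ge
  set D := 1 / K.δ ^ 2 with hD
  have hD0 : 0 < D := by positivity
  refine ⟨101 + K.N1 + S.q + (3 * S.q + 9) * D, fun θ hθ t ht => ?_⟩
  obtain ⟨hb, hg, htr⟩ := h.at hθ ht
  set p : ℝ × ℝ := (θ, t)
  have hρ := S.ρ_pos h.two p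
  have r0 : 0 ≤ S.ρ p ^ 2 := sq_nonneg _
  have r1 : S.ρ p ^ 2 ≤ 1 := pow_le_one₀ hρ.le hg.ρ_le
  have he : S.ρ p ^ 2 * exp (-2 * S.u p) = S.q - 1 := by
    rw [S.ρ_sq h.two]; field_simp
  have hqD : 0 ≤ (S.q : ℝ) * D := by positivity
  have h4 : S.ρ p ^ 2 * |exp (-2 * S.u p) - S.β p ^ 2| ≤ S.q - 1 + S.ρ p ^ 2 * S.β p ^ 2 := by
    have := mul_le_mul_of_nonneg_left (abs_sub (exp (-2 * S.u p)) (S.β p ^ 2)) r0
    rwa [abs_of_pos (exp_pos _), abs_of_nonneg (sq_nonneg (S.β p)), mul_add, he] at this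
  rcases le_or_gt (S.φ p) K.δ with hφ | hφ
  · have tr := htr hφ
    have k1 := tr.hh_le
    have k2 := tr.kk_le
    have k3 := tr.vv_le
    rw [← h.q_eq] at k1 k2 k3
    have k4 : 44 / (S.q : ℝ) ≤ 1 := by rw [div_le_one (by linarith)]; linarith
    have k5 := mul_nonneg r0 (abs_nonneg (S.hh p))
    have k6 := mul_nonneg r0 (abs_nonneg (S.kk p))
    have k7 : S.ρ p ^ 2 * |S.A p * S.vv p| ≤ 2 := by
      rw [← abs_of_nonneg r0, ← abs_mul, abs_le]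
      constructor <;> linarith [(abs_le.1 k3).1, (abs_le.1 k3).2]
    refine ⟨by nlinarith, by nlinarith [tr.dβ_le], by nlinarith, by nlinarith [tr.β_sq],
      by nlinarith⟩
  · have k3 : K.δ ^ 2 ≤ S.φ p ^ 2 := pow_le_pow_left₀ hδ.le hφ.le 2
    have kA : |S.A p| ≤ 1 := hb.A
    have kP : |S.P p| ≤ 2 := by linarith [hb.P]
    have key : ∀ x c : ℝ, S.φ p ^ 2 * |x| ≤ c → |x| ≤ c * D := fun x c hx => by
      rw [hD, mul_one_div, le_div_iff₀ (by positivity)]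
      nlinarith [abs_nonneg x]
    have kk : |S.kk p| ≤ 1 * D := key _ _ (by
      have h1 := h.sol.kk_eq θ t ht
      have h2 : S.A p ^ 2 ≤ 1 := by rw [← sq_abs]; exact pow_le_one₀ (abs_nonneg _) kA
      rw [← abs_of_nonneg (sq_nonneg (S.φ p)), ← abs_mul, h1, abs_le]
      constructor <;> nlinarith [sq_nonneg (S.A p)])
    have kφβ : |S.φ p * S.β p| ≤ 3 := by
      rw [S.β_eq]; linarith [abs_add_le (S.A p) (S.P p)]
    have kv : |S.vv p| ≤ 3 * D := key _ _ (by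
      rw [← abs_of_nonneg (sq_nonneg (S.φ p)), ← abs_mul,
        show S.φ p ^ 2 * S.vv p = S.φ p * S.β p by rw [← h.sol.vv_eq θ t ht]; ring]
      exact kφβ)
    have kβ : |S.β p ^ 2| ≤ 9 * D := key _ _ (by
      rw [abs_of_nonneg (sq_nonneg _), ← mul_pow, ← sq_abs]
      nlinarith [abs_nonneg (S.φ p * S.β p)])
    have kAv : |S.A p * S.vv p| ≤ 3 * D := by
      rw [abs_mul]; exact mul_abs_le kA kv
    have m1 := mul_abs_le r1 kk
    have m2 := mul_abs_le r1 kAv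
    have m3 := mul_abs_le r1 kβ
    have m0 : K.N1 * S.ρ p ^ 2 ≤ K.N1 := mul_le_of_le_one_right (by linarith) r1
    have m4 : S.ρ p ^ 2 * |S.b p| ≤ 1 + K.N1 := by linarith [hg.b_le]
    have m5 : S.ρ p ^ 2 * |S.c p| ≤ 1 + K.N1 := by linarith [hg.c_le]
    have n1 : |S.hh p| ≤ |S.b p| + 2 * |S.A p * S.vv p| + (S.q - 1) * |S.kk p| := by
      rw [show S.hh p = -S.b p - 2 * (S.A p * S.vv p) + (S.q - 1) * S.kk p by
        simp only [Q.Data.b]; ring]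
      exact tri3 (by norm_num) (by linarith)
    have n2 : |S.Ds S.β p + S.β p ^ 2| ≤
        |S.c p| + S.q * |S.A p * S.vv p| + 1 * |exp (-2 * S.u p) - S.β p ^ 2| := by
      refine le_of_eq_of_le (congrArg abs ?_) (tri3 (x := S.c p) (y := S.A p * S.vv p)
        (z := exp (-2 * S.u p) - S.β p ^ 2) (a := S.q) (b := 1) (by linarith) zero_le_one)
      simp only [Q.Data.c]
      ring
    rw [abs_of_nonneg (sq_nonneg (S.β p))] at m3
    have o1 := mul_le_mul_of_nonneg_left n1 r0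
    have o2 := mul_le_mul_of_nonneg_left n2 r0
    have o3 := mul_le_mul_of_nonneg_left m1 (by linarith : (0 : ℝ) ≤ S.q - 1)
    have o4 := mul_le_mul_of_nonneg_left m2 (by linarith : (0 : ℝ) ≤ S.q)
    refine ⟨by linarith, by linarith, by linarith, by linarith, by linarith⟩

/-- the Ricci curvatures are bounded by `C / ρ^(5/6)` -/
theorem Sing.ric (h : Sing K S J) : ∃ C, ∀ θ ∈ Ioo 0 π, ∀ t ∈ J,
    S.ρ (θ, t) ^ (5 / 6 : ℝ) * |S.a (θ, t)| ≤ C ∧ S.ρ (θ, t) ^ (5 / 6 : ℝ) * |S.b (θ, t)| ≤ C ∧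
      S.ρ (θ, t) ^ (5 / 6 : ℝ) * |S.c (θ, t)| ≤ C := by
  have hq : (10000 : ℝ) ≤ S.q := by rw [h.q_eq]; exact h.ok.q_geR
  have ha := h.ok.am_pos
  have hM := h.ok.M_ge
  have hN := h.ok.N_ge
  refine ⟨K.N + 2 * (K.M * ((2 / K.am) ^ (73 / 120 : ℝ) + 1)), fun θ hθ t ht => ?_⟩
  obtain ⟨hb, hg, -⟩ := h.at hθ ht
  set p : ℝ × ℝ := (θ, t)
  have hρ := S.ρ_pos h.two p
  have hσ := hg.σ_pos
  set w := S.ρ p ^ (5 / 6 : ℝ) with hw
  have w0 : 0 < w := rpow_pos_of_pos hρ _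
  have w1 : w ≤ 1 := rpow_le_one hρ.le hg.ρ_le (by norm_num)
  have g1 : w * S.G1 p ≤ (2 / K.am) ^ (73 / 120 : ℝ) := by
    have e1 : S.σ p ^ (73 / 40 : ℝ) = (S.σ p ^ 3) ^ (73 / 120 : ℝ) := by
      rw [← rpow_natCast, ← rpow_mul hσ.le]; norm_num
    have e2 : w * S.G1 p = (S.σ p ^ 3 / S.ρ p ^ 2) ^ (73 / 120 : ℝ) := by
      rw [div_rpow (by positivity) (by positivity), ← e1, ← rpow_natCast, ← rpow_mul hρ.le, hw,
        Q.Data.G1, mul_left_comm, ← rpow_add hρ, div_eq_mul_inv (S.σ p ^ _), ← rpow_neg hρ.le]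
      norm_num
    rw [e2]
    refine rpow_le_rpow (by positivity) ?_ (by norm_num)
    rw [div_le_div_iff₀ (by positivity) ha]
    linarith [hb.rho]
  have g2 : w * S.G2 p ≤ 1 :=
    mul_le_one₀ w1 (rpow_nonneg hρ.le _) (rpow_le_one hρ.le hg.ρ_le (by norm_num))
  set Wd := K.M * (S.G1 p + S.G2 p) with hW
  have g3 : w * Wd ≤ K.M * ((2 / K.am) ^ (73 / 120 : ℝ) + 1) := by
    rw [hW, mul_left_comm, mul_add]
    exact mul_le_mul_of_nonneg_left (add_le_add g1 g2) (by linarith)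
  have u1 : |S.U1 p| ≤ Wd := by simpa using hb.U1
  have u2 : |S.U2 p| ≤ Wd := by simpa using hb.U2
  have u3 : |S.R p| ≤ K.N := by simpa using hb.R
  have W0 : 0 ≤ Wd := (abs_nonneg _).trans u1
  have c1 : |S.c p| ≤ K.N + Wd := by
    have e := S.c_eq_R p
    have a1 := abs_le.1 u1
    have a2 := abs_le.1 u2
    have a3 := abs_le.1 u3
    rw [abs_le]
    constructor <;> nlinarith [a1.1, a1.2, a2.1, a2.2, a3.1, a3.2]
  have c2 : |S.a p| ≤ K.N + 2 * Wd := by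
    rw [show S.a p = S.U1 p + S.c p by simp [Q.Data.U1]]
    linarith [abs_add_le (S.U1 p) (S.c p)]
  have c3 : |S.b p| ≤ K.N + 2 * Wd := by
    rw [show S.b p = S.U2 p + S.c p by simp [Q.Data.U2]]
    linarith [abs_add_le (S.U2 p) (S.c p)]
  have key : ∀ x, |x| ≤ K.N + 2 * Wd →
      w * |x| ≤ K.N + 2 * (K.M * ((2 / K.am) ^ (73 / 120 : ℝ) + 1)) := fun x hx => by
    have := mul_le_mul_of_nonneg_left hx w0.le
    nlinarith
  exact ⟨key _ c2, key _ c3, key _ (by linarith)⟩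

/-- the radius of the small sphere at the pole -/
theorem Sing.pole (h : Sing K S J) {T : ℝ} (hT : T ∈ J) :
    S.ρ (0, T) ^ 2 ≤ S.sg T ^ (59 / 20 : ℝ) := by
  have hS := h.sol
  have hq2 := h.two
  have hσ := h.pos T hT
  have hG := h.good T hT
  have hT' : T ∈ Icc 0 T := ⟨hS.time.nonneg T hT, le_rfl⟩
  have h0 : (0 : ℝ) ∈ Icc 0 π := ⟨le_rfl, pi_pos.le⟩
  have h1 := nonneg_closed_θ (f := fun p => 1 * bdW K S 3 p - bdL K S 3 p)
    ((continuousOn_const.mul (bdW_cont hS hq2 hT hσ 3)).sub (bdL_cont hS hq2 hT 3)) hT'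
    (fun x hx => sub_nonneg.2 (bds_iff.1 (hG.1 (x, T) ⟨hx, hT'⟩).1 3)) 0 h0
  have h2 := nonneg_closed_θ (f := fun p => 1 - S.ρ p)
    (continuousOn_const.sub (hS.cont hT hS.sm_ρ)) hT'
    (fun x hx => sub_nonneg.2 (hG.1 (x, T) ⟨hx, hT'⟩).2.1.ρ_le) 0 h0
  simp only [bdL, bdW, Matrix.cons_val, Q.Data.E, hS.φ_zero hT, Q.Data.F1, Q.Data.F2,
    Q.Data.σ] at h1
  have hρ := S.ρ_pos hq2 (0, T)
  have hlam := h.ok.lam_ge
  have ham := h.ok.am_small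
  have ham0 := h.ok.am_pos
  have h3 : S.ρ (0, T) ^ (2 * K.lam) ≤ 1 := rpow_le_one hρ.le (by linarith) (by linarith)
  have h4 : S.sg T ^ (K.lam + 41 / 40) ≤ (S.sg T ^ (59 / 20 : ℝ)) ^ (41 / 40 : ℝ) := by
    rw [← rpow_mul hσ.le]
    exact rpow_le_rpow_of_exponent_ge hσ (h.sg_le hT) (by linarith)
  by_contra hlt
  have h6 : (S.sg T ^ (59 / 20 : ℝ)) ^ (41 / 40 : ℝ) ≤ (S.ρ (0, T) ^ 2) ^ (41 / 40 : ℝ) :=
    rpow_le_rpow (rpow_nonneg hσ.le _) (not_le.1 hlt).le (by norm_num)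
  rw [← rpow_natCast, ← rpow_mul hρ.le] at h6
  have h7 : S.sg T ^ (K.lam + 41 / 40) * S.ρ (0, T) ^ (-41 / 20 : ℝ) ≤ 1 := by
    rw [show (-41 / 20 : ℝ) = -(((2 : ℕ) : ℝ) * (41 / 40)) by norm_num, rpow_neg hρ.le,
      ← div_eq_mul_inv, div_le_one (rpow_pos_of_pos hρ _)]
    exact h4.trans h6
  norm_num at h1 ham
  nlinarith

end Vale.Agent.N244
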