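import Vale.Agent.P244I69.Defs
import Mathlib.MeasureTheory.Measure.Haar.InnerProductSpace
import Mathlib.Analysis.SpecialFunctions.Pow.NNReal

/-! P244: sectional and Ricci curvature, integrals against the Riemannian volume. -/

namespace Vale.Agent.N244

open scoped Manifold ContDiff ENNReal Topology
open Set MeasureTheory Vale.Agent.P244I

noncomputable section

/-- the standard basis of `ℝ^n` -/
def std (n : ℕ) (i : Fin n) : Euc n := EuclideanSpace.single i 1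

variable {E : Type} [NormedAddCommGroup E] [NormedSpace ℝ E]
  {M : Type} [TopologicalSpace M] [ChartedSpace E M]

variable (E) in
/-- `ι` is a smooth injective immersion of `M` onto the product of the two unit spheres. -/
def OntoSpheres {V W : Type} [NormedAddCommGroup V] [NormedSpace ℝ V] [NormedAddCommGroup W]
    [NormedSpace ℝ W] (ι : M → V × W) : Prop :=
  ContMDiff 𝓘(ℝ, E) 𝓘(ℝ, V × W) ∞ ι ∧ Function.Injective ι ∧
    (∀ x, Function.Injective (mfderiv 𝓘(ℝ, E) 𝓘(ℝ, V × W) ι x)) ∧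
    range ι = Metric.sphere 0 1 ×ˢ Metric.sphere 0 1

variable [Smooth E M]

/-- the sectional curvature `g(R(u, v) v, u) / (|u|² |v|² - g(u, v)²)` -/
def sec (g : Met E M) (R : Curv E M) (x : M) (u v : Tan E x) : ℝ :=
  ip g x (R x v v u) u / (ip g x u u * ip g x v v - ip g x u v ^ 2)

/-- the Ricci curvature `Ric(v, v) / |v|²` -/
def ric (g : Met E M) (R : Curv E M) (x : M) (v : Tan E x) : ℝ := tr (R x v v) / ip g x v v

/-- the norm `|Ric|(x) = sup_v |Ric(v, v)| / |v|²` -/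
def ricNorm (g : Met E M) (R : Curv E M) (x : M) : ℝ≥0∞ := ⨆ v, ENNReal.ofReal |ric g R x v|

/-- the matrix `g_ij(y) = g(∂_i, ∂_j)` in the chart `e`, for the basis `b` of the model space -/
def gmat {n : ℕ} (b : Fin n → E) (g : Met E M) (e : OpenPartialHomeomorph M E) (y : E) :
    Matrix (Fin n) (Fin n) ℝ :=
  Matrix.of fun i j => ip g (e.symm y) (mfderiv 𝓘(ℝ, E) 𝓘(ℝ, E) e.symm y (b i))
    (mfderiv 𝓘(ℝ, E) 𝓘(ℝ, E) e.symm y (b j))

/-- `∫_M f(t) dV_g(t)` is bounded for `0 ≤ t < T`: the integral of `f √det(g_ij)` is so on each of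
finitely many charts which cover `M`. -/
def IntBounded [MeasureSpace E] {n : ℕ} (b : Fin n → E) (g : ℝ → Met E M) (T : ℝ)
    (f : ℝ → M → ℝ≥0∞) : Prop :=
  ∃ F ⊆ atlas E M, F.Finite ∧ (∀ x, ∃ e ∈ F, x ∈ e.source) ∧ ∃ B < ⊤, ∀ t ∈ Ico 0 T, ∀ e ∈ F,
    ∫⁻ y in e.target, f t (e.symm y) * ENNReal.ofReal √(gmat b (g t) e y).det ≤ B

variable [FiniteDimensional ℝ E]

variable (E M) in
/-- At a finite singular time `limsup_{t ↗ T} max_M R = ∞`. -/
def ScalBlowUp : Prop :=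
  ∀ (T : ℝ) (g : ℝ → Met E M) (S : ℝ → M → ℝ), 0 < T → IsRicciFlow g T → ¬ ExtendsPast g T →
    (∀ t ∈ Ico 0 T, IsScal (g t) (S t)) → ∀ K : ℝ, ∃ᶠ t in 𝓝[<] T, ∃ x, K < S t x

/-- The estimates for the metric `g`, its curvature `R` and its scalar curvature `S` at the time
`τ` before the singular time. -/
def Rates (g : Met E M) (R : Curv E M) (S l : M → ℝ) (τ ε C : ℝ) : Prop :=
  IsRiem g R ∧ IsScal g S ∧ ∀ x, |S x| ≤ ε ∧
    (∀ u v, |sec g R x u v| * τ ^ 3 ≤ C ∧ |sec g R x u v| * l x ≤ C) ∧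
    (l x = 0 → ∃ u v, 1 ≤ C * (sec g R x u v * τ ^ (59 / 20 : ℝ))) ∧
    ∀ v, |ric g R x v| * τ ^ (5 / 4 : ℝ) ≤ C ∧ |ric g R x v| * l x ^ (5 / 12 : ℝ) ≤ C

/-- There is a Ricci flow on `[0, T)` which does not extend past `T`, with the estimates `Rates`
and with `∫ |Ric|^p dV` bounded in time for `0 ≤ p < P`. -/
def Singular [MeasureSpace E] {n : ℕ} (b : Fin n → E) (l : M → ℝ) (T ε P : ℝ) : Prop :=
  ∃ (g : ℝ → Met E M) (R : ℝ → Curv E M) (S : ℝ → M → ℝ) (C : ℝ),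
    IsRicciFlow g T ∧ ¬ ExtendsPast g T ∧
    (∀ t ∈ Ico 0 T, Rates (g t) (R t) (S t) l (T - t) ε C) ∧
    ∀ p ∈ Ico 0 P, IntBounded b g T fun t x => ricNorm (g t) (R t) x ^ p

end

end Vale.Agent.N244
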