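import Vale.Agent.N244.Chart

/-! P244: the singular flow on `S^m × S^2` with its estimates. -/

set_option maxSynthPendingDepth 3
set_option linter.style.haveILetI false

open scoped Manifold ContDiff Topology RealInnerProductSpace ENNReal
open Set Filter Real MeasureTheory

namespace Vale.Agent.N244

open Vale.Agent.P244I Vale.Agent.P244Z
open Vale.Agent.P244Z.Geo (Sph EmbChart emb pchart prodCharts emb_pchart spl lam wB Gc mat ev)

theorem contMDiff_emb {n : ℕ} {M A : Type} [TopologicalSpace M] [ChartedSpace (Euc n) M]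
    [Smooth (Euc n) M] [NormedAddCommGroup A] [NormedSpace ℝ A] {ι : M → A}
    (h : ∀ e ∈ atlas (Euc n) M, EmbChart ι e) : ContMDiff 𝓘(ℝ, Euc n) 𝓘(ℝ, A) ∞ ι := fun x => by
  have he := chart_mem_atlas (Euc n) x
  have d1 : ContMDiffAt 𝓘(ℝ, Euc n) 𝓘(ℝ, A) ∞ (ι ∘ (chartAt (Euc n) x).symm)
      (chartAt (Euc n) x x) := (h _ he).smooth.contMDiff _
  refine (d1.comp x ((contMDiffOn_chart (I := 𝓘(ℝ, Euc n)) (n := ∞) (x := x)).contMDiffAt
    (chart_source_mem_nhds _ x))).congr_of_eventuallyEq ?_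
  filter_upwards [chart_source_mem_nhds (Euc n) x] with w hw
  simp only [Function.comp_apply, (chartAt (Euc n) x).left_inv hw]

theorem atlas_emb (m : ℕ) : letI := prodCharts m 2
    ∀ e ∈ atlas (Euc (m + 2)) (Sph m × Sph 2), EmbChart emb e := by
  rintro _ ⟨x, rfl⟩
  exact emb_pchart _ _

/-- `1 - x₀²` -/
noncomputable def lat0 {m : ℕ} (z : Sph m × Sph 2) : ℝ := 1 - z.1.1 0 ^ 2

theorem ontoSpheres (m : ℕ) : letI := prodCharts m 2
    OntoSpheres (Euc (m + 2)) (emb : Sph m × Sph 2 → _) := by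
  letI := prodCharts m 2
  haveI := Geo.isManifold_of_emb (atlas_emb m)
  have h1 := contMDiff_emb (atlas_emb m)
  refine ⟨h1, fun x y h => Prod.ext (Subtype.ext (congrArg Prod.fst h))
    (Subtype.ext (congrArg Prod.snd h)), fun x => ?_, ?_⟩
  · obtain ⟨Q, O, hO, hQ, hx⟩ := (atlas_emb m _ (chart_mem_atlas (Euc (m + 2)) x)).ext
    have d1 := ((hQ.contDiffAt (hO.mem_nhds (hx x (mem_chart_source _ x)).1)).contMDiffAt
      ).mdifferentiableAt (by simp)
    have d2 := (h1 x).mdifferentiableAt (by simp)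
    have d3 : chartAt (Euc (m + 2)) x =ᶠ[𝓝 x] Q ∘ emb := by
      filter_upwards [chart_source_mem_nhds (Euc (m + 2)) x] with w hw
      exact (hx w hw).2.symm
    have d4 := (mdifferentiable_chart (I := 𝓘(ℝ, Euc (m + 2))) x).mfderiv_injective
      (mem_chart_source _ x)
    rw [d3.mfderiv_eq, mfderiv_comp x d1 d2] at d4
    exact fun u v h => d4 (congrArg (mfderiv _ _ Q (emb x)) h)
  · ext z
    exact ⟨fun ⟨x, h⟩ => h ▸ ⟨x.1.2, x.2.2⟩, fun h => ⟨(⟨_, h.1⟩, ⟨_, h.2⟩), rfl⟩⟩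

theorem exists_est' {q : ℕ} (hq : 10000 ≤ q) {T ε : ℝ} (hT : 0 < T) (hε : 0 < ε) :
    ∃ T' N χ φ ψ, T < T' ∧ N ≤ ε ∧ Est q T' N χ φ ψ := by
  obtain ⟨T0, N, χ, φ, ψ, h⟩ := exists_est hq
  have h0 := h.T_pos
  have hl : 0 < T / T0 + |N| / ε + 1 := by positivity
  refine ⟨_, _, _, _, _, ?_, ?_, h.scale (sqrt_pos.2 hl)⟩
  · rw [sq_sqrt hl.le, ← div_lt_iff₀ h0]
    linarith [div_nonneg (abs_nonneg N) hε.le]
  · rw [sq_sqrt hl.le, div_le_iff₀ hl, ← div_le_iff₀' hε]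
    linarith [div_le_div_of_nonneg_right (le_abs_self N) hε.le, div_pos hT h0]

theorem rpow_weight {x y D : ℝ} (hx : 0 ≤ x) (hy : 0 ≤ y) (hD : 0 ≤ D) (h : x ≤ D * y ^ 2) :
    x ^ (5 / 12 : ℝ) ≤ D ^ (5 / 12 : ℝ) * y ^ (5 / 6 : ℝ) := by
  refine (rpow_le_rpow hx h (by norm_num)).trans (le_of_eq ?_)
  rw [mul_rpow hD (sq_nonneg _), ← rpow_natCast, ← rpow_mul hy]
  norm_num

theorem sing {q : ℕ} (hq : 10000 ≤ q) {T ε : ℝ} (hT : 0 < T) (hε : 0 < ε) :
    ∃ (M : Type) (_ : TopologicalSpace M) (_ : T2Space M) (_ : CompactSpace M)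
      (_ : ChartedSpace (Euc (q + 1 + 2)) M) (_ : Smooth (Euc (q + 1 + 2)) M)
      (ι : M → Euc (q + 1 + 1) × Euc 3), OntoSpheres (Euc (q + 1 + 2)) ι ∧
      Singular (std (q + 1 + 2)) (fun z => 1 - (ι z).1 0 ^ 2) T ε (6 * (q + 1 : ℕ) / 5) := by
  have i1 : T2Space (Sph (q + 1) × Sph 2) := Prod.t2Space
  have i2 : CompactSpace (Sph (q + 1) × Sph 2) := inferInstance
  obtain ⟨T', N', χ, φ, ψ, hTT, hN', h⟩ := exists_est' hq hT hε
  have hW := h.W
  obtain ⟨a, b, hC⟩ := hW.coef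
  obtain ⟨C1, hC1⟩ := h.sec
  obtain ⟨C2, hC2⟩ := h.ric
  obtain ⟨C3, C30, hC3⟩ := h.low
  obtain ⟨C4, C40, hC4⟩ := h.pole
  obtain ⟨c5, c50, hc5⟩ := h.lag
  obtain ⟨c6, -, C6, hC6⟩ := h.den_bd
  have hmid : T' / 2 ∈ Ioo 0 T' := ⟨half_pos h.T_pos, half_lt_self h.T_pos⟩
  have hpi : π / 2 ∈ Ioo 0 π := ⟨half_pos pi_pos, half_lt_self pi_pos⟩
  have C10 : 0 ≤ C1 := le_trans (by positivity) (hC1 _ hmid _ hpi).1
  have C20 : 0 ≤ C2 := le_trans (mul_nonneg (rpow_nonneg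
    (hW.ψ_pos _ hmid _ (Ioo_subset_Icc_self hpi)).le _) (abs_nonneg _)) (hC2 _ hmid _ hpi).1
  let N : Sph (q + 1) := ⟨ev 0, by simp⟩
  let P : Sph 2 := ⟨ev 0, by simp⟩
  have hN : ∀ x : Sph (q + 1) × Sph 2, lat0 x = 1 - ⟪N.1, x.1.1⟫ ^ 2 := fun x => by
    simp [lat0, N, EuclideanSpace.inner_single_left]
  set s0 := T' - T with hs0
  have hsh : ∀ s ∈ Ico 0 T, s + s0 ∈ Ioo 0 T' := fun s hs =>
    ⟨by linarith [hs.1], by linarith [hs.2]⟩
  have eT : ∀ s, T' - (s + s0) = T - s := fun s => by rw [hs0]; ring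
  letI := prodCharts (q + 1) 2
  haveI := Geo.isManifold_of_emb (atlas_emb (q + 1))
  obtain ⟨g, g1, g2, g3⟩ := flow_of_emb (atlas_emb (q + 1)) (fun s => wB a b ψ N (s + s0)) hT
    (by
      rintro _ ⟨x, rfl⟩ t ht
      exact hW.riem hC N (emb_pchart _ _) (hsh t ht))
    (by
      rintro _ ⟨x, rfl⟩ u v
      exact (hC.smooth N (emb_pchart _ _) u v).comp
        (f := fun z : ℝ × Euc (q + 1 + 2) => (z.1 + s0, z.2)) (by fun_prop)
        fun z hz => ⟨hsh _ hz.1, trivial⟩)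
    (by
      rintro _ ⟨x, rfl⟩ t ht y u v
      exact (hW.flow hC N _ _ (hsh t ht) y u v).comp_add_const t s0)
    (by
      obtain ⟨y, ξ, K, hξ, hK0, k2⟩ := Geo.pole_value (a := a) (b := b) (ψ := ψ) one_le_two N P
      refine ⟨_, ⟨(-N, -P), rfl⟩, y, ξ, hξ, fun η hη => Eventually.frequently ?_⟩
      have k3 : ContinuousAt (fun t : ℝ => C4 * (T - t) ^ (59 / 20 : ℝ) * K) T :=
        (continuousAt_const.mul ((continuousAt_const.sub continuousAt_id).rpow_const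
          (Or.inr (by norm_num)))).mul continuousAt_const
      have k4 := (k3.eventually (gt_mem_nhds (show _ < η by simpa using hη))).filter_mono
        (nhdsWithin_le_nhds (s := Iio T))
      filter_upwards [k4, Ico_mem_nhdsLT hT] with t h1 h2
      have k5 := hC4 _ (hsh t h2)
      rw [eT] at k5
      rw [k2]
      exact (mul_le_mul_of_nonneg_right k5 hK0).trans_lt h1)
  choose R hR using fun t => (exu_riem (g t)).exists
  choose S hS using fun t => (exu_scal (g t)).exists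
  set D := 1 / c5 ^ 2 with hD
  have D0 : 0 ≤ D := by positivity
  set C := C3 * C1 + D * C1 + C3 ^ (5 / 12 : ℝ) * C2 + D ^ (5 / 12 : ℝ) * C2 + C4 with hCdef
  have b1 : 0 ≤ C3 * C1 := by positivity
  have b2 : 0 ≤ D * C1 := by positivity
  have b3 : 0 ≤ C3 ^ (5 / 12 : ℝ) * C2 := by positivity
  have b4 : 0 ≤ D ^ (5 / 12 : ℝ) * C2 := by positivity
  have key : ∀ t ∈ Ico 0 T, ∀ x,
      (∀ u v, |sec (g t) (R t) x u v| * (T - t) ^ 3 ≤ C ∧ |sec (g t) (R t) x u v| * lat0 x ≤ C) ∧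
      (lat0 x = 0 → ∃ u v, 1 ≤ C * (sec (g t) (R t) x u v * (T - t) ^ (59 / 20 : ℝ))) ∧
      ∀ v, |ric (g t) (R t) x v| * (T - t) ^ (5 / 4 : ℝ) ≤ C ∧
        |ric (g t) (R t) x v| * lat0 x ^ (5 / 12 : ℝ) ≤ C := by
    intro t ht x
    obtain ⟨v, w, y, rfl⟩ : ∃ v w y, (pchart v w).symm y = x :=
      ⟨_, _, _, (chartAt (Euc (q + 1 + 2)) x).left_inv (mem_chart_source _ x)⟩
    have ha : pchart v w ∈ atlas (Euc (q + 1 + 2)) (Sph (q + 1) × Sph 2) := ⟨(v, w), rfl⟩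
    have he : Mx (pchart v w) := IsManifold.subset_maximalAtlas ha
    have hy : y ∈ (pchart v w).target := by rw [(emb_pchart v w).target]; trivial
    have ht' := hsh t ht
    have hG := hW.riem hC N (emb_pchart v w) ht'
    have hm := g3 t ht _ ha
    have w1 : ∀ y, col N (pchart v w) y ∈ Ioo 0 π →
        (T - t) ^ 3 ≤ C3 * ψ (t + s0) (col N (pchart v w) y) ^ 2 := fun y hr => by
      rw [← eT]; exact hC3 _ ht' _ hr
    have w2 : ∀ y, col N (pchart v w) y ∈ Ioo 0 π → 1 - ⟪N.1, ((pchart v w).symm y).1.1⟫ ^ 2 ≤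
        D * ψ (t + s0) (col N (pchart v w) y) ^ 2 := fun y hr => by
      rw [← sin_col, hD, one_div_mul_eq_div, le_div_iff₀' (by positivity), ← mul_pow]
      exact pow_le_pow_left₀ (mul_nonneg c50.le (sin_pos_of_mem_Ioo hr).le) (hc5 _ ht' _ hr) 2
    have w3 : ∀ y, 0 ≤ 1 - ⟪N.1, ((pchart v w).symm y).1.1⟫ ^ 2 := fun y => by
      rw [← sin_col]; positivity
    have w4 : Continuous fun y => 1 - ⟪N.1, ((pchart v w).symm y).1.1⟫ ^ 2 :=
      continuous_const.sub ((continuous_col N v w).1.pow 2)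
    have pψ : ∀ y, col N (pchart v w) y ∈ Ioo 0 π → 0 ≤ ψ (t + s0) (col N (pchart v w) y) :=
      fun y hr => (hW.ψ_pos _ ht' _ (Ioo_subset_Icc_self hr)).le
    have tT : 0 < T - t := sub_pos.2 ht.2
    rw [hN]
    refine ⟨fun u u' => ?_, fun h0 => ?_, fun u => ?_⟩
    · obtain ⟨a', rfl⟩ := ds_surj he hy u
      obtain ⟨b', rfl⟩ := ds_surj he hy u'
      rw [sec_chart (hR t) he hy hG hm]
      exact ⟨(div_bound (area_nonneg hG _ _ _) b1 (sec_weight hW hC N v w ht' C30.le (hC1 _ ht')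
          continuous_const w1 rfl y a' b')).trans (by linarith),
        (div_bound (area_nonneg hG _ _ _) b2 (sec_weight hW hC N v w ht' D0 (hC1 _ ht')
          w4 w2 rfl y a' b')).trans (by linarith)⟩
    · obtain ⟨a', b', k⟩ := sec_pole hW hC N v w ht' rfl y h0
      refine ⟨ds _ y a', ds _ y b', ?_⟩
      have k5 := hC4 _ ht'
      have k6 := pow_pos (hW.ψ_pos _ ht' 0 ⟨le_rfl, pi_pos.le⟩) 2
      rw [eT] at k5
      rw [sec_chart (hR t) he hy hG hm, k, one_div_mul_eq_div, ← mul_div_assoc, le_div_iff₀ k6,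
        one_mul]
      exact k5.trans (mul_le_mul_of_nonneg_right (by linarith) (rpow_nonneg tT.le _))
    · obtain ⟨a', rfl⟩ := ds_surj he hy u
      have hA : 0 ≤ Gc (wB a b ψ N (t + s0)) emb (pchart v w) y a' a' := by
        rcases eq_or_ne a' 0 with rfl | h0
        · simp
        · exact (hG.pos y trivial a' h0).le
      rw [ric_chart' (hR t) he hy hG hm]
      refine ⟨(div_bound hA b3 (ric_weight hW hC N v w ht' (by positivity) (hC2 _ ht')
          continuous_const (fun y hr => ?_) rfl y a')).trans (by linarith),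
        (div_bound hA b4 (ric_weight hW hC N v w ht' (by positivity) (hC2 _ ht')
          (w4.rpow_const fun _ => Or.inr (by norm_num))
          (fun y hr => rpow_weight (w3 y) (pψ y hr) D0 (w2 y hr)) rfl y a')).trans (by linarith)⟩
      refine le_of_eq_of_le ?_ (rpow_weight (by positivity) (pψ y hr) C30.le (w1 y hr))
      rw [← rpow_natCast, ← rpow_mul tT.le]
      norm_num
  refine ⟨Sph (q + 1) × Sph 2, _, i1, i2, _, ‹_›, emb, ontoSpheres _, g, R, S, C, g1, g2,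
    fun t ht => ⟨hR t, hS t, fun x => ⟨?_, key t ht x⟩⟩, fun p hp => ?_⟩
  · rw [(hS t).chart, Geo.scalarCurv, g3 t ht _ (chart_mem_atlas _ x)]
    exact (hW.scal hC N _ _ (hsh t ht) (h.scal _ (hsh t ht)) _).trans hN'
  · have C0 : 0 ≤ C := by linarith
    refine ⟨(fun z : Sph (q + 1) × Sph 2 => pchart z.1 z.2) '' ({N, -N} ×ˢ {P, -P}),
      image_subset_range _ _, ((toFinite _).prod (toFinite _)).image _, fun x => ?_,
      ∫⁻ y, ENNReal.ofReal (C ^ p * C6 * maj (q + 1) (5 / 6 * p) y),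
      ((integrable_maj (Nat.le_add_left 1 q) (by linarith [hp.1])
        (by linarith [hp.2])).const_mul _).lintegral_lt_top, ?_⟩
    · have k : ∀ {k : ℕ} (z y : Sph k), ∃ v ∈ ({z, -z} : Set (Sph k)), y ≠ v := fun z y => by
        by_cases h : y = z
        · exact ⟨-z, Or.inr rfl, h ▸ ne_neg_of_mem_unit_sphere ℝ y⟩
        · exact ⟨z, Or.inl rfl, h⟩
      obtain ⟨v, hv, h1⟩ := k N x.1
      obtain ⟨w, hw, h2⟩ := k P x.2
      refine ⟨_, ⟨(v, w), ⟨hv, hw⟩, rfl⟩, ?_⟩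
      rw [Geo.pchart_source]
      exact ⟨by simpa using h1, by simpa using h2⟩
    · rintro t ht _ ⟨⟨v, w⟩, ⟨hv, -⟩, rfl⟩
      refine (setLIntegral_le_lintegral _ _).trans (lintegral_mono_ae ?_)
      filter_upwards [ae_fst_ne (Nat.le_add_left 1 q)] with y hy
      have l0 := Geo.lam_pos (spl (q + 1) 2 y).1
      have l1 := Geo.lam_pos (spl (q + 1) 2 y).2
      have l2 := mul_pos l0 (norm_pos_iff.2 hy)
      have k1 := lat_chart N v hv w y
      have k2 : ⟪N.1, ((pchart v w).symm y).1.1⟫ ∈ Ioo (-1 : ℝ) 1 :=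
        abs_lt.1 ((sq_lt_one_iff_abs_lt_one _).1 (by linarith [pow_pos l2 2]))
      have k3 := sqrt_det_le hW hC N v w (hsh t ht) (fun r hr => (hC6 _ (hsh t ht) r hr).2) y k2
      set z := lam (spl (q + 1) 2 y).1 * ‖(spl (q + 1) 2 y).1‖ with hz
      have k4 : ricNorm (g t) (R t) ((pchart v w).symm y) ≤
          ENNReal.ofReal (C * z ^ (-(5 / 6) : ℝ)) := iSup_le fun u => by
        refine ENNReal.ofReal_le_ofReal ?_
        have k5 := ((key t ht _).2.2 u).2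
        rw [hN, k1, ← rpow_natCast, ← rpow_mul l2.le] at k5
        rw [rpow_neg l2.le, ← div_eq_mul_inv, le_div_iff₀ (rpow_pos_of_pos l2 _)]
        refine le_of_eq_of_le ?_ k5
        norm_num
      have k6 : gmat (std _) (g t) (pchart v w) y =
          mat (Gc (wB a b ψ N (t + s0)) emb (pchart v w)) y := congrFun (g3 t ht _ ⟨(v, w), rfl⟩) y
      rw [k6]
      refine (mul_le_mul' (ENNReal.rpow_le_rpow k4 hp.1) (ENNReal.ofReal_le_ofReal k3)).trans
        (le_of_eq ?_)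
      rw [ENNReal.ofReal_rpow_of_nonneg (by positivity) hp.1,
        ← ENNReal.ofReal_mul (by positivity), mul_rpow C0 (by positivity), ← rpow_mul l2.le, maj,
        neg_mul]
      congr 1
      ring

end Vale.Agent.N244
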